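import Mathlib

/-! # Stable one-homogeneous solutions with smooth cross-section -/

open MeasureTheory Set Metric
open scoped ContDiff RealInnerProductSpace

namespace Vale.Agent.P098.H709

variable {d : ℕ}

/-- `u` is a one-homogeneous solution of the one-phase Bernoulli problem with smooth cross-section:
`u` is nonnegative, continuous, positively one-homogeneous and harmonic in `{u > 0}`; in `{u > 0}`
it agrees with a function `U` which is smooth in an open set containing the closure of `{u > 0}`
without the origin (so `u` is smooth up to the free boundary, away from the origin), and the free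
boundary condition `|∇U| = 1` holds on the free boundary without the origin. -/
structure IsSmoothCone (u U : EuclideanSpace ℝ (Fin d) → ℝ) : Prop where
  nonneg : ∀ x, 0 ≤ u x
  continuous : Continuous u
  homogeneous : ∀ r : ℝ, 0 < r → ∀ x, u (r • x) = r * u x
  smooth : ∃ V : Set (EuclideanSpace ℝ (Fin d)), IsOpen V ∧ closure {x | 0 < u x} \ {0} ⊆ V ∧
    ContDiffOn ℝ ∞ U V
  agree : ∀ x, 0 < u x → U x = u x
  harmonic : ∀ x, 0 < u x → Laplacian.laplacian u x = 0
  boundary : ∀ x ∈ frontier {x | 0 < u x}, x ≠ 0 → ‖gradient U x‖ = 1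

/-- The stability inequality `∫_{∂{u > 0}} H φ² dσ ≤ ∫_{u > 0} |∇φ|² dx` for every smooth `φ ≥ 0`
with compact support in the complement of the origin. Here `H = - D²U(∇U, ∇U)` is the mean curvature of
the free boundary. The left side is written as `∫_{u > 0} div F dx` (divergence theorem, the outer
unit normal is `-∇U`), for every smooth vector field `F` with compact support in the complement of
the origin such that `-⟪F, ∇U⟫ = H φ²` on the free boundary. -/
def IsStable (u U : EuclideanSpace ℝ (Fin d) → ℝ) : Prop :=
  ∀ (φ : EuclideanSpace ℝ (Fin d) → ℝ) (F : EuclideanSpace ℝ (Fin d) → EuclideanSpace ℝ (Fin d)),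
    ContDiff ℝ ∞ φ → (∀ x, 0 ≤ φ x) → HasCompactSupport φ → 0 ∉ tsupport φ →
    ContDiff ℝ ∞ F → HasCompactSupport F → 0 ∉ tsupport F →
    (∀ x ∈ frontier {y | 0 < u y}, x ≠ 0 →
      -⟪F x, gradient U x⟫ = -⟪fderiv ℝ (gradient U) x (gradient U x), gradient U x⟫ * φ x ^ 2) →
    ∫ x in {y | 0 < u y}, ∑ i, fderiv ℝ F x (EuclideanSpace.single i (1 : ℝ)) i ≤
      ∫ x in {y | 0 < u y}, ‖gradient φ x‖ ^ 2

end Vale.Agent.P098.H709
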