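import Vale.Agent.P098.H709.Main
import Vale.Agent.P098.H932.MinStable

/-! # Minimizing cones are stable and have smooth cross-section in dimension `2 ≤ d ≤ 7` -/

open MeasureTheory Set Metric Filter
open scoped ContDiff RealInnerProductSpace Topology NNReal

namespace Vale.Agent.P098.H709

variable {d : ℕ}

theorem stable_cross_section (h2 : 2 ≤ d) (h7 : d ≤ 7) (u : E d → ℝ) (hu : IsGlobalMinimizer u)
    (hh : IsOneHomogeneous u) :
    ∃ v U : E d → ℝ, u =ᵐ[volume] v ∧ IsSmoothCone v U ∧ IsStable v U := by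
  obtain ⟨v, U, K, huv, hm, h⟩ := smooth_cross_section h2 h7 u hu hh
  exact ⟨v, U, huv, h, H932.isStable_of_min hm h⟩

end Vale.Agent.P098.H709
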