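import Vale.Agent.P098.Bdl.B30

/-! # Global minimizers in dimension at most six are flat (no homogeneity is assumed) -/

open MeasureTheory Set Metric Filter
open scoped ContDiff RealInnerProductSpace Topology NNReal

namespace Vale.Agent.P098.H709

variable {d : ℕ}

lemma weiss_le {L : ℝ≥0} {f : E d → ℝ} (hf : LipschitzWith L f) (s : ℝ) :
    weiss f s ≤ ((L : ℝ) ^ 2 + 1) * ∫ y : E d, rM8_w 3 y := by
  rw [rM8_weiss_eq]
  have h1 : ∫ y : E d, rM8_a f (s • y) * rM8_w 3 y ≤ ∫ y : E d, ((L : ℝ) ^ 2 + 1) * rM8_w 3 y := by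
    refine integral_mono (rM8_aw_int hf s) ((rM8_w_int (by norm_num)).const_mul _) fun y => ?_
    exact mul_le_mul_of_nonneg_right (rM8_a_le hf _) (rM8_w_nonneg 3 y)
  rw [integral_const_mul] at h1
  have h2 : 0 ≤ ∫ y : E d, (f (s • y) / s) ^ 2 * (6 * max (1 - ‖y‖ ^ 2) 0 ^ 2) :=
    integral_nonneg fun y => rM8_second_nonneg f s y
  linarith

/-- Blow-down limits of minimizers are homogeneous. -/
theorem blow_down (hd : 1 ≤ d) {L : ℝ≥0} {u : E d → ℝ} (hu : MinL L u) {x₀ : E d} (hx₀ : u x₀ = 0)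
    {r : ℕ → ℝ} (hr : ∀ n, 0 < r n) (hr0 : Tendsto r atTop atTop) :
    ∃ φ : ℕ → ℕ, StrictMono φ ∧ ∃ v : E d → ℝ, MinL L v ∧ Hom1 v ∧
      ∀ x, Tendsto (fun n => resc u x₀ (r (φ n)) x) atTop (𝓝 (v x)) := by
  have hzero : ∀ ρ : ℝ, resc u x₀ ρ 0 = 0 := fun ρ => by simp [resc, hx₀]
  obtain ⟨φ, hφ, v, hvL, hlim⟩ := exists_subseq (f := fun n => resc u x₀ (r n)) (L := L) (C := 0)
    (fun n => (hu.resc x₀ (hr n)).lip) (fun n => by simp [hzero])
  have hmin : ∀ n, MinL L (resc u x₀ (r (φ n))) := fun n => hu.resc x₀ (hr _)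
  have hv : MinL L v := lim_minL hd hmin hlim
  refine ⟨φ, hφ, v, hv, ?_, hlim⟩
  obtain ⟨c, hc, hnd⟩ := nondeg d hd
  have hW : MinL L (resc u x₀ 1) := hu.resc x₀ one_pos
  set W : ℝ → ℝ := weiss (resc u x₀ 1) with hWdef
  have hmono : MonotoneOn W (Ioi 0) := fun a ha b _ hab => weiss_mono hW ha hab
  have hbdd : BddAbove (W '' Ioi 0) := by
    refine ⟨((L : ℝ) ^ 2 + 1) * ∫ y : E d, rM8_w 3 y, ?_⟩
    rintro _ ⟨s, hs, rfl⟩
    exact weiss_le hW.lip s
  have hWlim : Tendsto W atTop (𝓝 (sSup (W '' Ioi 0))) := by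
    rw [tendsto_order]
    constructor
    · intro a ha
      obtain ⟨_, ⟨s0, hs0, rfl⟩, h⟩ := exists_lt_of_lt_csSup
        (⟨W 1, 1, mem_Ioi.2 one_pos, rfl⟩ : (W '' Ioi 0).Nonempty) ha
      filter_upwards [eventually_ge_atTop s0] with s hs
      exact lt_of_lt_of_le h (hmono hs0 (lt_of_lt_of_le hs0 hs) hs)
    · intro a ha
      filter_upwards [eventually_gt_atTop 0] with s hs
      exact lt_of_le_of_lt (le_csSup hbdd ⟨s, hs, rfl⟩) ha
  have key : ∀ s : ℝ, 0 < s → weiss v s = sSup (W '' Ioi 0) := by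
    intro s hs
    have h1 : Tendsto (fun n => weiss (resc u x₀ (r (φ n))) s) atTop (𝓝 (weiss v s)) :=
      rM8_weiss_tendsto hmin hv (fun n => hzero _) hlim hc
        (fun n => hnd L _ (hmin n)) hs
    have h2 : Tendsto (fun n => r (φ n) * s) atTop atTop :=
      (hr0.comp hφ.tendsto_atTop).atTop_mul_const hs
    have h3 : Tendsto (fun n => weiss (resc u x₀ (r (φ n))) s) atTop (𝓝 (sSup (W '' Ioi 0))) := by
      have := hWlim.comp h2
      refine this.congr fun n => ?_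
      simp only [Function.comp, hWdef]
      exact (rM8_weiss_resc u x₀ (hr _) hs).symm
    exact tendsto_nhds_unique h1 h3
  exact hom_of_weiss_const hv fun ρ hρ => by rw [key ρ hρ, key 1 one_pos]

/-- If homogeneous minimizers are flat, a minimizer is almost flat at arbitrarily large scales. -/
theorem traps_inf {n : ℕ} (hFL : FL (n + 1)) {L : ℝ≥0} {u : E (n + 1) → ℝ}
    (hu : MinL L u) {x₀ : E (n + 1)} (hx : x₀ ∈ frontier (pos u))
    {ε : ℝ} (hε : 0 < ε) (M : ℝ) : ∃ (r : ℝ) (e : E (n + 1)), M ≤ r ∧ 0 < r ∧ ‖e‖ = 1 ∧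
      Trap (resc u x₀ r) (fun x => ⟪x, e⟫) (-ε) ε 0 1 := by
  obtain ⟨c, hc, hnd⟩ := nondeg (n + 1) (by omega)
  have hux0 : u x₀ = 0 := hu.zero_of_frontier hx
  set r : ℕ → ℝ := fun n => max M 1 + n with hr_def
  have hr1 : ∀ n, max M 1 ≤ r n := fun n => by
    have : (0 : ℝ) ≤ n := Nat.cast_nonneg n
    simp only [hr_def]; linarith
  have hr : ∀ n, 0 < r n := fun n => lt_of_lt_of_le (lt_max_of_lt_right one_pos) (hr1 n)
  have hr0 : Tendsto r atTop atTop :=
    tendsto_atTop_add_const_left _ _ tendsto_natCast_atTop_atTop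
  obtain ⟨φ, hφ, v, hv, hvh, hlim⟩ := blow_down (d := n + 1) (by omega) hu hux0 hr hr0
  have hf : ∀ k, MinL L (resc u x₀ (r (φ k))) := fun k => hu.resc x₀ (hr _)
  rcases hFL L _ hv hvh with hv0 | ⟨f, hf1, hvf⟩
  · exfalso
    have := lim_closure hf hlim hc (fun k => hnd L _ (hf k)) (x := 0) (fun k => by
      rw [mem_closure_resc (hr _), smul_zero, add_zero]
      exact frontier_subset_closure hx)
    have hempty : pos v = ∅ := by
      ext x; simp [hv0 x]
    rw [hempty, closure_empty] at this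
    exact this
  · set ε' : ℝ := min (ε / 2) (c * ε / 4) with hε'
    have hε'0 : 0 < ε' := by positivity
    obtain ⟨k, hk⟩ := (unif_on_balls (fun k => (hf k).lip) hlim (1 + ε) hε'0).exists
    refine ⟨r (φ k), f, (le_max_left _ _).trans (hr1 _), hr _, hf1, ?_⟩
    intro x hxb
    rw [mem_ball_zero_iff] at hxb
    have hxx : x ∈ closedBall (0 : E (n + 1)) (1 + ε) := by
      rw [mem_closedBall_zero_iff]; linarith
    have hkx := abs_le.mp (hk x hxx)
    have e1 : ε' ≤ ε / 2 := min_le_left _ _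
    have e2 : ε' ≤ c * ε / 4 := min_le_right _ _
    have hvx := hvf x
    have hnn := (hf k).nonneg x
    constructor
    · apply max_le _ hnn
      have : ⟪x, f⟫ ≤ v x := by rw [hvx]; exact le_max_left _ _
      show ⟪x, f⟫ + -ε ≤ _
      linarith only [hkx.1, this, e1, hε'0]
    · rcases le_or_gt (-ε / 2) ⟪x, f⟫ with h | h
      · apply le_max_of_le_left
        show _ ≤ ⟪x, f⟫ + ε
        have : v x ≤ ⟪x, f⟫ + ε / 2 := by
          rw [hvx]; apply max_le <;> linarith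
        linarith only [hkx.2, this, e1]
      · apply le_max_of_le_right
        by_contra hcon
        push Not at hcon
        obtain ⟨y, hy, hcy⟩ := hnd L _ (hf k) x hcon (ε / 2) (by positivity)
        rw [mem_closedBall, dist_eq_norm] at hy
        have hyb : y ∈ closedBall (0 : E (n + 1)) (1 + ε) := by
          rw [mem_closedBall_zero_iff]
          have : ‖y‖ ≤ ‖y - x‖ + ‖x‖ := by
            calc ‖y‖ = ‖(y - x) + x‖ := by rw [sub_add_cancel]
              _ ≤ _ := norm_add_le _ _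
          linarith only [this, hy, e1, hxb, hε'0]
        have hyx : ⟪y, f⟫ ≤ 0 := by
          have h1 : ⟪y, f⟫ = ⟪x, f⟫ + ⟪y - x, f⟫ := by rw [inner_sub_left]; ring
          have h2 : ⟪y - x, f⟫ ≤ ‖y - x‖ * ‖f‖ := real_inner_le_norm _ _
          rw [hf1, mul_one] at h2
          linarith only [h2, h1, hy, h]
        have hvy : v y = 0 := by rw [hvf y]; exact max_eq_right hyx
        have hky := abs_le.mp (hk y hyb)
        rw [hvy] at hky
        have : c * ε / 4 < c * (ε / 2) := by nlinarith only [hc, hε]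
        linarith only [hky.2, this, hcy, e2]

/-- The improvement of flatness from infinity: on every ball and for every error there is a
half-plane solution. -/
theorem almost {n : ℕ} (hFL : FL (n + 1)) {L : ℝ≥0} {u : E (n + 1) → ℝ}
    (hu : MinL L u) {x₀ : E (n + 1)} (hx : x₀ ∈ frontier (pos u)) {ρ δ : ℝ} (hρ : 0 < ρ)
    (hδ : 0 < δ) : ∃ ν : E (n + 1), ‖ν‖ = 1 ∧ ∀ z ∈ ball x₀ ρ,
      max (⟪z - x₀, ν⟫ - δ) 0 ≤ u z ∧ u z ≤ max (⟪z - x₀, ν⟫ + δ) 0 := by
  obtain ⟨ε₀, C, hε₀, hC, hexp⟩ := expansion n 1 le_rfl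
  obtain ⟨M, hM1, hMρ, hMδ⟩ : ∃ M : ℝ, 1 ≤ M ∧ ρ ≤ M ∧ C * ε₀ * (ρ * √ρ) / δ ≤ √M := by
    refine ⟨max 1 (max ρ ((C * ε₀ * (ρ * √ρ) / δ) ^ 2)), le_max_left _ _,
      (le_max_left _ _).trans (le_max_right _ _), ?_⟩
    apply Real.le_sqrt_of_sq_le
    exact (le_max_right _ _).trans (le_max_right _ _)
  obtain ⟨R, e, hMR, hR, he, hT⟩ := traps_inf hFL hu hx hε₀ M
  obtain ⟨Φ, hΦ⟩ := exists_isometry he
  have hw : MinL L (fun x => resc u x₀ R (Φ x)) := (hu.resc x₀ hR).isometry Φ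
  have h0 : (0 : E (n + 1)) ∈ frontier (pos (fun x => resc u x₀ R (Φ x))) := by
    rw [mem_frontier_isometry, mem_frontier_resc hR]
    simpa using hx
  have hTw : Trap (fun x => resc u x₀ R (Φ x)) (fun x => x 0) (-ε₀) ε₀ 0 1 := by
    intro x hx
    have hx' : Φ x ∈ ball (0 : E (n + 1)) 1 := by simpa using hx
    have h1 := hT (Φ x) hx'
    have h2 : ⟪Φ x, e⟫ = x 0 := by
      rw [← hΦ, LinearIsometryEquiv.inner_map_map]
      simp [ee, EuclideanSpace.inner_single_right]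
    simp only at h1
    rw [h2] at h1
    exact h1
  obtain ⟨P, hP1, -, hP0, hPg, -, hPT⟩ := hexp L _ hw h0 ε₀ hε₀ le_rfl hTw
  obtain ⟨ν, hν⟩ := rE13_linear P hP1 hP0
  have hν1 : ‖ν‖ = 1 := by
    have h1 : ev P = fun x => (innerSL ℝ ν) x := by
      funext x; rw [hν x, innerSL_apply_apply, real_inner_comm]
    rw [h1] at hPg
    rw [(innerSL ℝ ν).fderiv] at hPg
    rwa [innerSL_apply_norm] at hPg
  refine ⟨Φ ν, by rw [Φ.norm_map, hν1], fun z hz => ?_⟩
  have hRM : ρ ≤ R := hMρ.trans hMR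
  set s : ℝ := ρ / R with hs
  have hs0 : 0 < s := by positivity
  have hs1 : s ≤ 1 := by rw [hs, div_le_one hR]; exact hRM
  have herr : R * (C * ε₀ * (s ^ 1 * √s)) ≤ δ := by
    have h1 : R * (C * ε₀ * (s ^ 1 * √s)) = C * ε₀ * (ρ * √ρ) / √R := by
      have h2 : √s = √ρ / √R := by rw [hs, Real.sqrt_div hρ.le]
      rw [h2, pow_one, hs]
      field_simp
    rw [h1, div_le_iff₀ (Real.sqrt_pos.2 hR)]
    have h3 : √M ≤ √R := Real.sqrt_le_sqrt hMR
    have h4 := hMδ.trans h3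
    rw [div_le_iff₀ hδ] at h4
    linarith
  have hzx : Φ.symm (R⁻¹ • (z - x₀)) ∈ ball (0 : E (n + 1)) s := by
    rw [mem_ball_zero_iff, Φ.symm.norm_map, norm_smul, norm_inv, Real.norm_eq_abs, abs_of_pos hR]
    rw [mem_ball, dist_eq_norm] at hz
    rw [hs, inv_mul_lt_iff₀ hR, mul_div_cancel₀ _ hR.ne']
    exact hz
  obtain ⟨h1, h2⟩ := hPT s hs0 hs1 _ hzx
  have e1 : resc u x₀ R (Φ (Φ.symm (R⁻¹ • (z - x₀)))) = u z / R := by
    rw [LinearIsometryEquiv.apply_symm_apply]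
    simp only [resc]
    rw [smul_smul, mul_inv_cancel₀ hR.ne', one_smul, add_sub_cancel]
  have e2 : ev P (Φ.symm (R⁻¹ • (z - x₀))) = ⟪z - x₀, Φ ν⟫ / R := by
    rw [hν, ← Φ.inner_map_map, LinearIsometryEquiv.apply_symm_apply, real_inner_smul_left]
    field_simp
  change _ ≤ resc u x₀ R (Φ (Φ.symm (R⁻¹ • (z - x₀)))) at h1
  change resc u x₀ R (Φ (Φ.symm (R⁻¹ • (z - x₀)))) ≤ _ at h2
  rw [e1, e2] at h1 h2
  have hu0 := hu.nonneg z
  constructor
  · refine max_le ?_ hu0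
    have h3 := (le_max_left _ _).trans h1
    rw [le_div_iff₀ hR, add_mul, div_mul_cancel₀ _ hR.ne'] at h3
    linarith
  · rcases le_max_iff.1 h2 with h3 | h3
    · apply le_max_of_le_left
      rw [div_le_iff₀ hR, add_mul, div_mul_cancel₀ _ hR.ne'] at h3
      linarith
    · apply le_max_of_le_right
      rw [div_le_iff₀ hR, zero_mul] at h3
      exact h3

/-- Minimizers with a free boundary point are half-plane solutions. -/
theorem halfplane {n : ℕ} (hFL : FL (n + 1)) {L : ℝ≥0} {u : E (n + 1) → ℝ}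
    (hu : MinL L u) {x₀ : E (n + 1)} (hx : x₀ ∈ frontier (pos u)) :
    ∃ ν : E (n + 1), ‖ν‖ = 1 ∧ ∀ z, u z = max ⟪z - x₀, ν⟫ 0 := by
  have hex : ∀ k : ℕ, ∃ ν : E (n + 1), ‖ν‖ = 1 ∧ ∀ z ∈ ball x₀ ((k : ℝ) + 1),
      max (⟪z - x₀, ν⟫ - 1 / ((k : ℝ) + 1)) 0 ≤ u z ∧
        u z ≤ max (⟪z - x₀, ν⟫ + 1 / ((k : ℝ) + 1)) 0 :=
    fun k => almost hFL hu hx (by positivity) (by positivity)
  choose ν hν1 hν using hex
  have hmem : ∀ k, ν k ∈ sphere (0 : E (n + 1)) 1 := fun k => by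
    rw [mem_sphere_zero_iff_norm]; exact hν1 k
  obtain ⟨w, hw, φ, hφ, hlim⟩ := (isCompact_sphere (0 : E (n + 1)) 1).tendsto_subseq hmem
  refine ⟨w, by rwa [mem_sphere_zero_iff_norm] at hw, fun z => ?_⟩
  have hin : Tendsto (fun k => ⟪z - x₀, ν (φ k)⟫) atTop (𝓝 ⟪z - x₀, w⟫) :=
    tendsto_const_nhds.inner hlim
  have h0 : Tendsto (fun k : ℕ => 1 / (((φ k : ℕ) : ℝ) + 1)) atTop (𝓝 0) :=
    tendsto_one_div_add_atTop_nhds_zero_nat.comp hφ.tendsto_atTop
  have hlo : Tendsto (fun k => max (⟪z - x₀, ν (φ k)⟫ - 1 / (((φ k : ℕ) : ℝ) + 1)) 0) atTop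
      (𝓝 (max ⟪z - x₀, w⟫ 0)) := by
    have := (hin.sub h0).max (tendsto_const_nhds (x := (0 : ℝ)))
    simpa using this
  have hhi : Tendsto (fun k => max (⟪z - x₀, ν (φ k)⟫ + 1 / (((φ k : ℕ) : ℝ) + 1)) 0) atTop
      (𝓝 (max ⟪z - x₀, w⟫ 0)) := by
    have := (hin.add h0).max (tendsto_const_nhds (x := (0 : ℝ)))
    simpa using this
  have hev : ∀ᶠ k in atTop, z ∈ ball x₀ (((φ k : ℕ) : ℝ) + 1) := by
    have h1 : Tendsto (fun k => ((φ k : ℕ) : ℝ)) atTop atTop :=
      tendsto_natCast_atTop_atTop.comp hφ.tendsto_atTop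
    filter_upwards [h1.eventually_ge_atTop (dist z x₀)] with k hk
    rw [mem_ball]; linarith
  apply le_antisymm
  · exact ge_of_tendsto hhi (hev.mono fun k hk => (hν (φ k) z hk).2)
  · exact le_of_tendsto hlo (hev.mono fun k hk => (hν (φ k) z hk).1)

/-- A positive global minimizer does not exist. -/
theorem no_pos (hd : 1 ≤ d) {v : E d → ℝ} (hc : Continuous v) (hv : IsGlobalMinimizer v)
    (hpos : ∀ x, 0 < v x) : False := by
  have hp : pos v = univ := eq_univ_of_forall hpos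
  have hharm : Harm univ v := hp ▸ rS7_harm hc hv
  set m : ℝ := sInf (range v) with hm
  have hbdd : BddBelow (range v) := ⟨0, by rintro _ ⟨x, rfl⟩; exact (hpos x).le⟩
  have hmle : ∀ x, m ≤ v x := fun x => csInf_le hbdd ⟨x, rfl⟩
  obtain ⟨c, hc0, hc1, hh⟩ := harnack d
  have hconst : Harm (univ : Set (E d)) (fun _ => m) := by
    refine ⟨contDiffOn_const, fun x _ => ?_⟩
    have h1 : ∀ i, P1 (fun _ : E d => m) i = fun _ => 0 := fun i => by
      funext y; simp [P1]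
    simp [lap, P2, h1]
  have hsub : Harm univ (fun x => v x - m) := rE12a_harm_sub isOpen_univ hharm hconst
  have hcmp : ∀ y z : E d, c * (v y - m) ≤ v z - m := by
    intro y z
    set r : ℝ := 2 * (‖y‖ + ‖z‖ + 1) with hr
    have hr0 : 0 < r := by positivity
    refine hh (fun x => v x - m) 0 r hr0
      ⟨hsub.1.mono (subset_univ _), fun x _ => hsub.2 x (mem_univ x)⟩
      (fun x _ => sub_nonneg.2 (hmle x)) y ?_ z ?_
    · rw [mem_closedBall_zero_iff, hr]; linarith [norm_nonneg y, norm_nonneg z]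
    · rw [mem_closedBall_zero_iff, hr]; linarith [norm_nonneg y, norm_nonneg z]
  have heq : ∀ y, v y = m := by
    intro y
    refine le_antisymm ?_ (hmle y)
    by_contra hcon
    push Not at hcon
    have hgt : 0 < c * (v y - m) := mul_pos hc0 (sub_pos.2 hcon)
    obtain ⟨_, ⟨z, rfl⟩, hz⟩ := exists_lt_of_csInf_lt (range_nonempty v)
      (show sInf (range v) < m + c * (v y - m) by rw [← hm]; linarith)
    linarith [hcmp y z]
  have hLip : LipschitzWith 0 v := by
    refine LipschitzWith.of_dist_le_mul fun x y => ?_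
    rw [heq x, heq y]; simp
  have hM : MinL 0 v := ⟨hLip, hv.1, lipMin_of_isGlobalMinimizer hLip hv⟩
  obtain ⟨c', hc', hnd⟩ := nondeg d hd
  have hm0 : 0 < m := by rw [← heq 0]; exact hpos 0
  obtain ⟨y, -, hy⟩ := hnd 0 v hM 0 (hpos 0) (2 * m / c') (by positivity)
  rw [heq y, mul_div_cancel₀ _ hc'.ne'] at hy
  linarith

/-- Global minimizers have a representative which is Lipschitz continuous. -/
theorem exists_minL (hd : 1 ≤ d) {u : E d → ℝ} (hu : IsGlobalMinimizer u) :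
    ∃ (K : ℝ≥0) (v : E d → ℝ), MinL K v ∧ u =ᵐ[volume] v ∧ ∃ x, v x = 0 := by
  obtain ⟨C, hC0, hC⟩ := exists_harm_approx hd hu
  have hloc : LocallyIntegrable u := by
    intro x
    obtain ⟨h0, g, hg⟩ := hu
    have h1 := (hg x 1 one_pos).1.1
    have hfin : IsFiniteMeasure (volume.restrict (ball x 1)) :=
      ⟨by simpa only [MeasurableSet.univ, Measure.restrict_apply, univ_inter] using
        measure_ball_lt_top⟩
    exact ⟨ball x 1, ball_mem_nhds x one_pos, h1.integrable (by norm_num)⟩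
  obtain ⟨C', v, hvc, huv, hav⟩ := exists_cont_rep hd hloc hC
  have hv0 : ∀ x, 0 ≤ v x := by
    have hcl : IsClosed {x | 0 ≤ v x} := isClosed_le continuous_const hvc
    have hae : ∀ᵐ x, x ∈ {x | 0 ≤ v x} := by
      filter_upwards [huv] with x hx
      show 0 ≤ v x
      rw [← hx]
      exact hu.1 x
    have hdense : Dense {x | 0 ≤ v x} := Measure.dense_of_ae hae
    intro x
    have := hcl.closure_eq ▸ hdense.closure_eq
    have hx : x ∈ (univ : Set (E d)) := mem_univ x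
    rw [← this] at hx
    exact hx
  have hvm : IsGlobalMinimizer v := rS7_min_congr huv hv0 hu
  have hz : ∃ x, v x = 0 := by
    by_contra hcon
    push Not at hcon
    exact no_pos hd hvc hvm fun x => lt_of_le_of_ne (hv0 x) (Ne.symm (hcon x))
  obtain ⟨p, hp⟩ := hz
  -- translation
  have hharm := rS7_harm hvc hvm
  have hopen : IsOpen (pos v) := isOpen_lt continuous_const hvc
  set w : E d → ℝ := fun x => v (x - (-p)) with hw
  have hwc : Continuous w := hvc.comp (continuous_id.sub continuous_const)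
  have hwharm : Harm (pos w) w := by
    refine ⟨?_, fun x hx => ?_⟩
    · exact hharm.1.comp (contDiff_id.sub contDiff_const).contDiffOn fun x hx => hx
    · rw [hw, rE12a_lap_trans]; exact hharm.2 _ hx
  have hwav : ∀ (x : E d) (r : ℝ), 0 < r → |av w r x - w x| ≤ C' * r := by
    intro x r hr
    have h1 : av w r x = av v r (x - (-p)) := by
      simp only [av, hw]
      congr 2
      funext y
      congr 2
      abel
    rw [h1]
    exact hav _ r hr
  obtain ⟨K, hK⟩ := lipschitz_of_av hd hwc (fun x => hv0 _) hwharm hwav (by simp [hw, hp])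
  have hKv : LipschitzWith K v := by
    refine LipschitzWith.of_dist_le_mul fun x y => ?_
    have h1 := hK.dist_le_mul (x + -p) (y + -p)
    simpa [hw] using h1
  exact ⟨K, v, ⟨hKv, hv0, lipMin_of_isGlobalMinimizer hKv hvm⟩, huv, p, hp⟩

/-- Flatness of all homogeneous minimizers gives flatness of all minimizers. -/
theorem liouville {n : ℕ} (hFL : FL (n + 1)) (u : E (n + 1) → ℝ) (hu : IsGlobalMinimizer u) :
    u =ᵐ[volume] (fun _ => 0) ∨
      ∃ (e : E (n + 1)) (a : ℝ), ‖e‖ = 1 ∧ u =ᵐ[volume] fun x => max (⟪x, e⟫ - a) 0 := by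
  obtain ⟨K, v, hv, huv, p, hp⟩ := exists_minL (by omega) hu
  by_cases hne : (pos v).Nonempty
  · right
    have hfr : (frontier (pos v)).Nonempty := by
      rw [nonempty_frontier_iff]
      refine ⟨hne, fun h => ?_⟩
      have : p ∈ pos v := h ▸ mem_univ p
      exact this.ne' hp
    obtain ⟨x₀, hx₀⟩ := hfr
    obtain ⟨ν, hν1, hν⟩ := halfplane hFL hv hx₀
    refine ⟨ν, ⟪x₀, ν⟫, hν1, ?_⟩
    filter_upwards [huv] with x hx
    rw [hx, hν, inner_sub_left]
  · left
    filter_upwards [huv] with x hx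
    rw [hx]
    refine le_antisymm (not_lt.1 fun h => hne ⟨x, h⟩) (hv.nonneg x)

/-- Homogeneous minimizers are flat in dimension at most six. -/
theorem FL_six : ∀ d, 1 ≤ d → d ≤ 6 → FL d :=
  FL_of_smooth 6 fun d h3 hd => by
    obtain ⟨m, rfl⟩ : ∃ m, d = m + 1 := ⟨d - 1, by omega⟩
    exact smoothFlat_of_cert' (by omega) (S5.Low.certs_of_cert5 cert5 m (by omega) (by omega))

theorem liouville_six (hd : 1 ≤ d) (h6 : d ≤ 6) (u : E d → ℝ) (hu : IsGlobalMinimizer u) :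
    u =ᵐ[volume] (fun _ => 0) ∨
      ∃ (e : E d) (a : ℝ), ‖e‖ = 1 ∧ u =ᵐ[volume] fun x => max (⟪x, e⟫ - a) 0 := by
  obtain ⟨n, rfl⟩ : ∃ n, d = n + 1 := ⟨d - 1, by omega⟩
  exact liouville (FL_six _ (by omega) h6) u hu

end Vale.Agent.P098.H709
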