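import Vale.Agent.P098.Bdl.B30
import Vale.Agent.P098.H709.Defs

/-! # Stable one-homogeneous solutions with smooth cross-section are flat in dimension at most six

The certificate of the closure only uses the stability inequality; here the steps of the reduction
which were stated for minimizers are repeated for stable solutions. -/

open MeasureTheory Set Metric Filter
open scoped ContDiff RealInnerProductSpace Topology NNReal

namespace Vale.Agent.P098.H709

variable {d m : ℕ}

section MCpart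

open MC

/-- First variation for nonnegative test functions, for functions harmonic in `{u > 0}`. -/
theorem firstVar' {u : E d → ℝ} {K : NNReal} (hK : LipschitzWith K u) (h0 : ∀ x, 0 ≤ u x)
    (hharm : Harm (pos u) u) {ζ : E d → ℝ} {K' : NNReal} (hζ : LipschitzWith K' ζ)
    (hζp : ∀ x, 0 ≤ ζ x)
    (hζc : HasCompactSupport ζ) (hζ0 : ∀ x, u x = 0 → ζ x = 0) :
    ∫ x, ⟪gradient u x, gradient ζ x⟫ = 0 := by
  have hopen : IsOpen (pos u) := isOpen_lt continuous_const hK.continuous
  have hmu : Measurable (gradient u) := measurable_gradient u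
  -- truncations
  have hδ : ∀ δ : ℝ, 0 < δ → ∫ x, ⟪gradient u x, gradient (fun y => max (ζ y - δ) 0) x⟫ = 0 := by
    intro δ hδ
    set ψ : E d → ℝ := fun y => max (ζ y - δ) 0 with hψ
    have hψL : LipschitzWith K' ψ := by
      refine LipschitzWith.of_dist_le_mul fun x y => ?_
      refine le_trans ?_ (hζ.dist_le_mul x y)
      rw [Real.dist_eq, Real.dist_eq]
      simp only [hψ]
      have := abs_max_sub_max_le_abs (ζ x - δ) (ζ y - δ) 0
      simpa using this
    set S : Set (E d) := {x | δ ≤ ζ x} with hS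
    have hSc : IsCompact S := by
      refine hζc.isCompact.of_isClosed_subset (isClosed_le continuous_const hζ.continuous) ?_
      intro x hx
      refine subset_tsupport _ ?_
      have h1 : δ ≤ ζ x := hx
      exact (lt_of_lt_of_le hδ h1).ne'
    have hSp : S ⊆ pos u := by
      intro x hx
      refine lt_of_le_of_ne (h0 x) fun h => ?_
      have h1 : δ ≤ ζ x := hx
      rw [hζ0 x h.symm] at h1
      linarith
    obtain ⟨χ, hχ, hχc, hχN, hχ0, hχ1, O, hO, hSO, hO1⟩ := exists_cutoff hSc hopen hSp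
    have hGs : ContDiff ℝ ∞ (fun y => χ y • gradient u y) := by
      refine C2.contDiff_smul hopen hχ ?_ hχN
      exact M5a.contDiffOn_gradient hopen hharm.1
    have hGc : HasCompactSupport (fun y => χ y • gradient u y) := hχc.smul_right
    have h1 := integral_mul_divg hψL (hGs.of_le (by simp)) hGc
    have hψout : ∀ x, x ∉ S → ψ x = 0 := by
      intro x hx
      have h2 : ζ x < δ := not_le.1 hx
      simp only [hψ]
      exact max_eq_right (by linarith)
    have h2 : ∫ x, ψ x * divg (fun y => χ y • gradient u y) x = 0 := by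
      rw [← integral_zero (E d) ℝ]
      refine integral_congr_ae (Eventually.of_forall fun x => ?_)
      by_cases hx : x ∈ S
      · have hev : (fun y => χ y • gradient u y) =ᶠ[𝓝 x] gradient u := by
          filter_upwards [hO.mem_nhds (hSO hx)] with y hy
          rw [hO1 y hy, one_smul]
        have hgd : DifferentiableAt ℝ (gradient u) x :=
          ((M5a.contDiffOn_gradient hopen hharm.1).contDiffAt
            (hopen.mem_nhds (hSp hx))).differentiableAt (by norm_num)
        show ψ x * divg (fun y => χ y • gradient u y) x = 0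
        rw [M5a.divg_congr hev, M5a.divg_gradient hgd, hharm.2 x (hSp hx), mul_zero]
      · show ψ x * divg (fun y => χ y • gradient u y) x = 0
        rw [hψout x hx, zero_mul]
    rw [h2] at h1
    have h3 : ∫ x, ⟪gradient ψ x, χ x • gradient u x⟫ = ∫ x, ⟪gradient u x, gradient ψ x⟫ := by
      refine integral_congr_ae (Eventually.of_forall fun x => ?_)
      by_cases hx : x ∈ S
      · show ⟪gradient ψ x, χ x • gradient u x⟫ = ⟪gradient u x, gradient ψ x⟫
        rw [hO1 x (hSO hx), one_smul, real_inner_comm]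
      · have h4 : gradient ψ x = 0 := by
          have : ψ x = 0 := hψout x hx
          exact gradient_eq_zero_of_eq_zero (fun y => le_max_right _ _) this
        show ⟪gradient ψ x, χ x • gradient u x⟫ = ⟪gradient u x, gradient ψ x⟫
        rw [h4, inner_zero_left, inner_zero_right]
    linarith
  -- the limit
  have hlim : Tendsto (fun n : ℕ => ∫ x, ⟪gradient u x,
      gradient (fun y => max (ζ y - 1 / ((n : ℝ) + 1)) 0) x⟫) atTop
      (𝓝 (∫ x, ⟪gradient u x, gradient ζ x⟫)) := by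
    refine tendsto_integral_of_dominated_convergence
      ((tsupport ζ).indicator fun _ => (K : ℝ) * K') ?_ ?_ ?_ ?_
    · intro n
      exact (hmu.inner (measurable_gradient _)).aestronglyMeasurable
    · exact (integrable_indicator_iff (isClosed_tsupport ζ).measurableSet).2
        (integrableOn_const hζc.isCompact.measure_ne_top)
    · intro n
      refine Eventually.of_forall fun x => ?_
      have hn : (0 : ℝ) < 1 / ((n : ℝ) + 1) := by positivity
      by_cases hx : x ∈ tsupport ζ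
      · rw [indicator_of_mem hx]
        refine (abs_real_inner_le_norm _ _).trans ?_
        refine mul_le_mul (norm_gradient_le hK x) (norm_gradient_le ?_ x) (norm_nonneg _) K.2
        refine LipschitzWith.of_dist_le_mul fun x y => ?_
        refine le_trans ?_ (hζ.dist_le_mul x y)
        rw [Real.dist_eq, Real.dist_eq]
        have := abs_max_sub_max_le_abs (ζ x - 1 / ((n : ℝ) + 1)) (ζ y - 1 / ((n : ℝ) + 1)) 0
        simpa using this
      · rw [indicator_of_notMem hx]
        have h1 : gradient (fun y => max (ζ y - 1 / ((n : ℝ) + 1)) 0) x = 0 := by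
          refine gradient_eq_zero_of_eq_zero (fun y => le_max_right _ _) ?_
          rw [image_eq_zero_of_notMem_tsupport hx]
          exact max_eq_right (by linarith)
        rw [h1, inner_zero_right, norm_zero]
    · refine Eventually.of_forall fun x => ?_
      rcases (hζp x).lt_or_eq with hx | hx
      · refine tendsto_const_nhds.congr' ?_
        have h1 : ∀ᶠ n : ℕ in atTop, 1 / ((n : ℝ) + 1) < ζ x :=
          (tendsto_one_div_add_atTop_nhds_zero_nat (𝕜 := ℝ)).eventually (gt_mem_nhds hx)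
        filter_upwards [h1] with n hn
        have h2 : (fun y => max (ζ y - 1 / ((n : ℝ) + 1)) 0) =ᶠ[𝓝 x]
            fun y => ζ y - 1 / ((n : ℝ) + 1) := by
          filter_upwards [hζ.continuous.continuousAt.eventually (lt_mem_nhds hn)] with y hy
          exact max_eq_left (by linarith)
        rw [h2.gradient_eq]
        congr 1
        rw [gradient, gradient, fderiv_sub_const]
      · refine tendsto_const_nhds.congr' (Eventually.of_forall fun n => ?_)
        have hn : (0 : ℝ) < 1 / ((n : ℝ) + 1) := by positivity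
        have h1 : gradient (fun y => max (ζ y - 1 / ((n : ℝ) + 1)) 0) x = 0 := by
          refine gradient_eq_zero_of_eq_zero (fun y => le_max_right _ _) ?_
          rw [← hx]
          exact max_eq_right (by linarith)
        beta_reduce
        rw [h1, gradient_eq_zero_of_eq_zero hζp hx.symm]
  have hzero : ∀ n : ℕ, ∫ x, ⟪gradient u x,
      gradient (fun y => max (ζ y - 1 / ((n : ℝ) + 1)) 0) x⟫ = 0 := fun n => hδ _ (by positivity)
  simp_rw [hzero] at hlim
  exact (tendsto_nhds_unique hlim tendsto_const_nhds)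


theorem layer_bound' {u : E d → ℝ} {K : NNReal} (hK : LipschitzWith K u) (h0 : ∀ x, 0 ≤ u x)
    (hharm : Harm (pos u) u) {χ : E d → ℝ} (hχ : ContDiff ℝ ∞ χ) (hχc : HasCompactSupport χ)
    (hχn : ∀ x, 0 ≤ χ x) :
    ∃ C : ℝ, 0 ≤ C ∧ ∀ ε : ℝ, 0 < ε →
      ∫ x, χ x * (‖gradient u x‖ ^ 2 / (1 + (u x / ε) ^ 2)) ≤ C * ε := by
  obtain ⟨K', hK'⟩ := ContDiff.lipschitzWith_of_hasCompactSupport hχc hχ (by simp)
  obtain ⟨M, hM⟩ := hχc.exists_bound_of_continuous hχ.continuous
  have hmu : Measurable u := hK.continuous.measurable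
  have hmg : Measurable (gradient u) := measurable_gradient u
  have hmχ : Measurable (gradient χ) := measurable_gradient χ
  refine ⟨2 * ∫ x, |⟪gradient u x, gradient χ x⟫|, by (clear * -; positivity), fun ε hε => ?_⟩
  have hχ0 : ∀ x, x ∉ tsupport χ → gradient χ x = 0 := by
    intro x hx
    have : fderiv ℝ χ x = 0 := by
      by_contra hne
      exact hx (support_fderiv_subset ℝ hne)
    rw [gradient, this, map_zero]
  -- Lipschitz functions
  have hε' : LipschitzWith (Real.toNNReal ε⁻¹ * K) fun x => u x / ε := by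
    refine LipschitzWith.of_dist_le_mul fun x y => ?_
    have := hK.dist_le_mul x y
    rw [Real.dist_eq] at this ⊢
    rw [← sub_div, abs_div, abs_of_pos hε, NNReal.coe_mul, Real.coe_toNNReal _ (by positivity),
      div_eq_inv_mul, mul_assoc]
    gcongr
  have ha : LipschitzWith (1 * (Real.toNNReal ε⁻¹ * K)) fun x => Real.arctan (u x / ε) :=
    lip_arctan.comp hε'
  obtain ⟨K'', hζ⟩ := lip_mul ha hK' (fun x => abs_arctan_le _) hM
  have hζc : HasCompactSupport fun x => Real.arctan (u x / ε) * χ x := hχc.mul_left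
  have hζ0 : ∀ x, u x = 0 → Real.arctan (u x / ε) * χ x = 0 := by
    intro x hx
    simp [hx]
  have hfv := firstVar' hK h0 hharm hζ (fun x => mul_nonneg (Real.arctan_nonneg.2 (div_nonneg (h0 x) hε.le)) (hχn x)) hζc hζ0
  -- pointwise formula
  have hpt : ∀ᵐ x : E d, ⟪gradient u x, gradient (fun x => Real.arctan (u x / ε) * χ x) x⟫ =
      ε⁻¹ * (χ x * (‖gradient u x‖ ^ 2 / (1 + (u x / ε) ^ 2))) +
        Real.arctan (u x / ε) * ⟪gradient u x, gradient χ x⟫ := by
    filter_upwards [hK.ae_differentiableAt] with x hx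
    have h1 : HasFDerivAt (fun y => u y / ε) (ε⁻¹ • fderiv ℝ u x) x := by
      have := hx.hasFDerivAt.const_smul ε⁻¹
      refine this.congr_of_eventuallyEq (Eventually.of_forall fun y => ?_)
      simp only [div_eq_inv_mul, Pi.smul_apply, smul_eq_mul]
    have h2 := h1.arctan
    have h3 : HasFDerivAt χ (fderiv ℝ χ x) x :=
      (hχ.differentiable (by simp)).differentiableAt.hasFDerivAt
    have h4 := h2.mul h3
    rw [real_inner_comm, inner_gradient_left, real_inner_comm, inner_gradient_left]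
    have h5 : fderiv ℝ (fun x => Real.arctan (u x / ε) * χ x) x = _ := h4.fderiv
    rw [h5]
    simp only [add_apply, smul_apply, smul_eq_mul]
    rw [← inner_gradient_left (f := u), real_inner_self_eq_norm_sq]
    ring
  rw [integral_congr_ae hpt] at hfv
  have hS : IsCompact (tsupport χ) := hχc
  have hi1 : Integrable fun x =>
      ε⁻¹ * (χ x * (‖gradient u x‖ ^ 2 / (1 + (u x / ε) ^ 2))) := by
    refine (integrable_of_bdd (S := tsupport χ) (C := M * (K : ℝ) ^ 2) ?_ hS ?_ ?_).const_mul _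
    · exact hχ.continuous.measurable.mul ((hmg.norm.pow_const 2).div
        (((hmu.div_const ε).pow_const 2).const_add 1))
    · intro x hx
      rw [image_eq_zero_of_notMem_tsupport hx, zero_mul]
    · intro x _
      have h1 : ‖gradient u x‖ ^ 2 ≤ (K : ℝ) ^ 2 :=
        pow_le_pow_left₀ (norm_nonneg _) (norm_gradient_le hK x) 2
      have h2 : (1 : ℝ) ≤ 1 + (u x / ε) ^ 2 := by (clear * -; linarith [sq_nonneg (u x / ε)])
      rw [abs_mul]
      refine mul_le_mul (hM x) ?_ (abs_nonneg _) ((norm_nonneg _).trans (hM x))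
      rw [abs_of_nonneg (by (clear * -; positivity))]
      exact (div_le_self (by (clear * -; positivity)) h2).trans h1
  have hi0 : Integrable fun x => ⟪gradient u x, gradient χ x⟫ := by
    refine integrable_of_bdd (S := tsupport χ) (C := (K : ℝ) * K') ?_ hS ?_ ?_
    · exact hmg.inner hmχ
    · intro x hx
      rw [hχ0 x hx, inner_zero_right]
    · intro x _
      exact (abs_real_inner_le_norm _ _).trans (mul_le_mul (norm_gradient_le hK x)
        (norm_gradient_le hK' x) (norm_nonneg _) K.2)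
  have hi2 : Integrable fun x => Real.arctan (u x / ε) * ⟪gradient u x, gradient χ x⟫ := by
    refine integrable_of_bdd (S := tsupport χ) (C := 2 * ((K : ℝ) * K')) ?_ hS ?_ ?_
    · exact (Real.measurable_arctan.comp (hmu.div_const ε)).mul (hmg.inner hmχ)
    · intro x hx
      rw [hχ0 x hx, inner_zero_right, mul_zero]
    · intro x _
      rw [abs_mul]
      refine mul_le_mul (abs_arctan_le _) ?_ (abs_nonneg _) (by norm_num)
      exact (abs_real_inner_le_norm _ _).trans (mul_le_mul (norm_gradient_le hK x)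
        (norm_gradient_le hK' x) (norm_nonneg _) K.2)
  rw [integral_add hi1 hi2, integral_const_mul] at hfv
  have h6 : -(∫ x, Real.arctan (u x / ε) * ⟪gradient u x, gradient χ x⟫) ≤
      2 * ∫ x, |⟪gradient u x, gradient χ x⟫| := by
    rw [← integral_neg, ← integral_const_mul]
    refine integral_mono hi2.neg (hi0.abs.const_mul 2) fun x => ?_
    refine (neg_le_abs _).trans ?_
    rw [abs_mul]
    exact mul_le_mul_of_nonneg_right (abs_arctan_le _) (abs_nonneg _)
  have h7 : ε⁻¹ * ∫ x, χ x * (‖gradient u x‖ ^ 2 / (1 + (u x / ε) ^ 2)) ≤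
      2 * ∫ x, |⟪gradient u x, gradient χ x⟫| := by linarith only [hfv, h6]
  rw [inv_mul_le_iff₀ hε] at h7
  linarith only [h7]

theorem layer_est' {u : E d → ℝ} {K : NNReal} (hK : LipschitzWith K u) (h0 : ∀ x, 0 ≤ u x)
    (hharm : Harm (pos u) u) {N : Set (E d)} {U : E d → ℝ} (hU : LocalExt u N U)
    (hUs : ContDiff ℝ ∞ U) {S : Set (E d)} (hS : IsCompact S) (hSN : S ⊆ N) :
    ∃ C : ℝ, 0 ≤ C ∧ ∃ ε₀ : ℝ, 0 < ε₀ ∧ ∀ ε : ℝ, 0 < ε →
      ∫ x in S ∩ {x | 0 < u x ∧ u x < ε₀}, 1 / (1 + (u x / ε) ^ 2) ≤ C * ε := by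
  have hu := hK.continuous
  have hmu : Measurable u := hu.measurable
  have hmg : Measurable (gradient u) := measurable_gradient u
  obtain ⟨χ, hχ, hχc, hχN, hχ0, hχ1, O, hO, hSO, hO1⟩ := exists_cutoff hS hU.isOpen hSN
  obtain ⟨C, hC0, hC⟩ := layer_bound' hK h0 hharm hχ hχc hχ0
  have hgU := (contDiff_gradient hUs).continuous
  obtain ⟨ε₀, hε₀, hnear⟩ := near_bdry hu h0 hS (f := fun x => ‖gradient U x‖ ^ 2 - 1)
    (by (clear * - hgU; fun_prop)) (fun x hx hxf => by rw [hU.grad x (hSN hx) hxf]; norm_num)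
    (δ := 3 / 4) (by norm_num)
  refine ⟨4 * C, by (clear * - hC0; positivity), ε₀, hε₀, fun ε hε => ?_⟩
  have hms : MeasurableSet (S ∩ {x | 0 < u x ∧ u x < ε₀}) :=
    hS.measurableSet.inter ((measurableSet_lt measurable_const hmu).inter
      (measurableSet_lt hmu measurable_const))
  have hsub : S ∩ {x | 0 < u x ∧ u x < ε₀} ⊆ S := inter_subset_left
  have hi : Integrable fun x => χ x * (‖gradient u x‖ ^ 2 / (1 + (u x / ε) ^ 2)) := by
    refine integrable_of_bdd (S := tsupport χ) (C := (K : ℝ) ^ 2) ?_ hχc ?_ ?_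
    · exact hχ.continuous.measurable.mul ((hmg.norm.pow_const 2).div
        (((hmu.div_const ε).pow_const 2).const_add 1))
    · intro x hx
      rw [image_eq_zero_of_notMem_tsupport hx, zero_mul]
    · intro x _
      have h1 : ‖gradient u x‖ ^ 2 ≤ (K : ℝ) ^ 2 :=
        pow_le_pow_left₀ (norm_nonneg _) (norm_gradient_le hK x) 2
      have h2 : (1 : ℝ) ≤ 1 + (u x / ε) ^ 2 := by linarith [sq_nonneg (u x / ε)]
      rw [abs_of_nonneg (mul_nonneg (hχ0 x) (by (clear * -; positivity)))]
      refine (mul_le_of_le_one_left (by (clear * -; positivity)) (hχ1 x)).trans ?_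
      exact (div_le_self (by (clear * -; positivity)) h2).trans h1
  have h1 : ∫ x in S ∩ {x | 0 < u x ∧ u x < ε₀}, 1 / (1 + (u x / ε) ^ 2) ≤
      ∫ x in S ∩ {x | 0 < u x ∧ u x < ε₀},
        4 * (χ x * (‖gradient u x‖ ^ 2 / (1 + (u x / ε) ^ 2))) := by
    refine setIntegral_mono_on ((integrableOn_layer hmu ε hS).mono_set hsub)
      (hi.integrableOn.const_mul 4) hms fun x hx => ?_
    have h2 := hnear x hx.1 hx.2.1 hx.2.2
    rw [hO1 x (hSO hx.1), hU.mc_gradient_eq hu (hSN hx.1) hx.2.1, one_mul, ← mul_div_assoc]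
    gcongr
    linarith only [h2]
  refine h1.trans ?_
  rw [integral_const_mul]
  have h2 : ∫ x in S ∩ {x | 0 < u x ∧ u x < ε₀},
      χ x * (‖gradient u x‖ ^ 2 / (1 + (u x / ε) ^ 2)) ≤
      ∫ x, χ x * (‖gradient u x‖ ^ 2 / (1 + (u x / ε) ^ 2)) :=
    setIntegral_le_integral hi (Eventually.of_forall fun x => mul_nonneg (hχ0 x) (by (clear * -; positivity)))
  have h3 := hC ε hε
  linarith

theorem one_sided_div' {u : E d → ℝ} {K : NNReal} (hK : LipschitzWith K u) (h0 : ∀ x, 0 ≤ u x)
    (hharm : Harm (pos u) u) {N : Set (E d)} {U : E d → ℝ} (hU : LocalExt u N U)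
    (hUs : ContDiff ℝ ∞ U) {G : E d → E d} (hG : ContDiff ℝ 1 G) (hGc : HasCompactSupport G)
    (hGN : tsupport G ⊆ N)
    (hb : ∀ x ∈ N, x ∈ frontier {y | 0 < u y} → 0 ≤ ⟪G x, gradient U x⟫) :
    ∫ x in {y | 0 < u y}, divg G x ≤ 0 := by
  have hu := hK.continuous
  have hmu : Measurable u := hu.measurable
  have hmg : Measurable (gradient u) := measurable_gradient u
  have hmG : Measurable G := hG.continuous.measurable
  have hS : IsCompact (tsupport G) := hGc
  have hΩm : MeasurableSet {y | 0 < u y} := measurableSet_lt measurable_const hmu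
  obtain ⟨C, hC0, ε₁, hε₁, hC⟩ := layer_est' hK h0 hharm hU hUs hS hGN
  obtain ⟨M, hM⟩ := hGc.exists_bound_of_continuous hG.continuous
  have hgU := (contDiff_gradient hUs).continuous
  have hdc : Continuous (divg G) := by
    have := hG.continuous_fderiv (by simp)
    unfold divg
    (clear * - hG; fun_prop)
  have hdcs : HasCompactSupport (divg G) :=
    (hGc.fderiv ℝ).comp_left (g := fun L : E d →L[ℝ] E d => ∑ i, L (ee i) i) (by simp only [zero_apply, PiLp.zero_apply, Finset.sum_const_zero])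
  have hdi : Integrable (divg G) := hdc.integrable_of_hasCompactSupport hdcs
  have hi0 : Integrable fun x => ⟪gradient u x, G x⟫ := by
    refine integrable_of_bdd (S := tsupport G) (C := (K : ℝ) * M) (hmg.inner hmG) hS ?_ ?_
    · intro x hx
      rw [image_eq_zero_of_notMem_tsupport hx, inner_zero_right]
    · intro x _
      exact (abs_real_inner_le_norm _ _).trans (mul_le_mul (norm_gradient_le hK x)
        (hM x) (norm_nonneg _) K.2)
  -- main estimate
  have key : ∀ η : ℝ, 0 < η → ∃ C' : ℝ, ∀ ε : ℝ, 0 < ε →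
      ∫ x, Real.arctan (u x / ε) * divg G x ≤ C * η + C' * ε := by
    intro η hη
    obtain ⟨ε₂, hε₂, hnear⟩ := near_bdry hu h0 hS (f := fun x => ⟪G x, gradient U x⟫)
      (by have := hG.continuous; fun_prop) (fun x hx hxf => hb x (hGN hx) hxf) hη
    set ε₀ := min ε₁ ε₂ with hε₀
    have hε₀pos : 0 < ε₀ := lt_min hε₁ hε₂
    refine ⟨(ε₀ ^ 2)⁻¹ * ∫ x, |⟪gradient u x, G x⟫|, fun ε hε => ?_⟩
    have hε' : LipschitzWith (Real.toNNReal ε⁻¹ * K) fun x => u x / ε := by
      refine LipschitzWith.of_dist_le_mul fun x y => ?_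
      have := hK.dist_le_mul x y
      rw [Real.dist_eq] at this ⊢
      rw [← sub_div, abs_div, abs_of_pos hε, NNReal.coe_mul, Real.coe_toNNReal _ (by (clear * - hε; positivity)),
        div_eq_inv_mul, mul_assoc]
      (clear * - this hε; gcongr)
    have ha : LipschitzWith (1 * (Real.toNNReal ε⁻¹ * K)) fun x => Real.arctan (u x / ε) :=
      lip_arctan.comp hε'
    rw [integral_mul_divg ha hG hGc]
    have hpt : ∀ᵐ x : E d, ⟪gradient (fun x => Real.arctan (u x / ε)) x, G x⟫ =
        ε⁻¹ * (1 / (1 + (u x / ε) ^ 2) * ⟪gradient u x, G x⟫) := by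
      filter_upwards [hK.ae_differentiableAt] with x hx
      have h1 : HasFDerivAt (fun y => u y / ε) (ε⁻¹ • fderiv ℝ u x) x := by
        have := hx.hasFDerivAt.const_smul ε⁻¹
        refine this.congr_of_eventuallyEq (Eventually.of_forall fun y => ?_)
        simp [div_eq_inv_mul]
      have h2 := h1.arctan
      rw [inner_gradient_left, inner_gradient_left, h2.fderiv]
      simp only [smul_apply, smul_eq_mul]
      ring
    rw [integral_congr_ae hpt, integral_const_mul, ← mul_neg, ← integral_neg]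
    have hint : Integrable fun x => -(1 / (1 + (u x / ε) ^ 2) * ⟪gradient u x, G x⟫) := by
      refine (hi0.bdd_mul (c := 1) (measurable_layer hmu ε).aestronglyMeasurable
        (Eventually.of_forall fun x => ?_)).neg
      rw [Real.norm_eq_abs, abs_of_nonneg (by (clear * -; positivity))]
      exact layer_le_one _
    have hms : MeasurableSet (tsupport G ∩ {x | 0 < u x ∧ u x < ε₁}) :=
      hS.measurableSet.inter ((measurableSet_lt measurable_const hmu).inter
        (measurableSet_lt hmu measurable_const))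
    have hI1 : Integrable ((tsupport G ∩ {x | 0 < u x ∧ u x < ε₁}).indicator
        fun x => η * (1 / (1 + (u x / ε) ^ 2))) := by
      rw [integrable_indicator_iff hms]
      exact ((integrableOn_layer hmu ε hS).mono_set inter_subset_left).const_mul η
    have hle : ∫ x, -(1 / (1 + (u x / ε) ^ 2) * ⟪gradient u x, G x⟫) ≤
        ∫ x, ((tsupport G ∩ {x | 0 < u x ∧ u x < ε₁}).indicator
          (fun x => η * (1 / (1 + (u x / ε) ^ 2))) x +
          ε ^ 2 * ((ε₀ ^ 2)⁻¹ * |⟪gradient u x, G x⟫|)) := by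
      refine integral_mono hint (hI1.add ((hi0.abs.const_mul _).const_mul _)) fun x => ?_
      have hnn : 0 ≤ ε ^ 2 * ((ε₀ ^ 2)⁻¹ * |⟪gradient u x, G x⟫|) := by (clear * - hε hε₁ hε₂; positivity)
      have hnn' : 0 ≤ (tsupport G ∩ {x | 0 < u x ∧ u x < ε₁}).indicator
          (fun x => η * (1 / (1 + (u x / ε) ^ 2))) x :=
        indicator_nonneg (fun x _ => by (clear * - hη; positivity)) x
      by_cases hxS : x ∈ tsupport G
      · rcases (h0 x).lt_or_eq with hux | hux
        · by_cases hlt : u x < ε₀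
          · have h1 : u x < ε₁ := hlt.trans_le (min_le_left _ _)
            have h2 : u x < ε₂ := hlt.trans_le (min_le_right _ _)
            have h3 := hnear x hxS hux h2
            rw [hU.mc_gradient_eq hu (hGN hxS) hux,
              indicator_of_mem (show x ∈ tsupport G ∩ {x | 0 < u x ∧ u x < ε₁} from
                ⟨hxS, hux, h1⟩)]
            rw [hU.mc_gradient_eq hu (hGN hxS) hux] at hnn
            rw [real_inner_comm] at h3
            have h4 : 0 < 1 / (1 + (u x / ε) ^ 2) := by (clear * - hux hε; positivity)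
            linarith only [hnn, mul_pos (sub_pos.2 h3) (sub_pos.2 h4)]
          · rw [not_lt] at hlt
            have h3 : 1 / (1 + (u x / ε) ^ 2) ≤ ε ^ 2 * (ε₀ ^ 2)⁻¹ := by
              have h4 : ε₀ ^ 2 ≤ u x ^ 2 := pow_le_pow_left₀ hε₀pos.le hlt 2
              have h5 : 0 < ε₀ ^ 2 := by (clear * - hε₁ hε₂; positivity)
              rw [div_le_iff₀ (by (clear * - hux hε; positivity)), div_pow]
              have h6 : (1 : ℝ) ≤ ε ^ 2 * (ε₀ ^ 2)⁻¹ * (u x ^ 2 / ε ^ 2) := by
                have h7 : ε ^ 2 * (ε₀ ^ 2)⁻¹ * (u x ^ 2 / ε ^ 2) = u x ^ 2 / ε₀ ^ 2 := by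
                  (clear * - hε hux hε₀pos; field_simp)
                rw [h7, le_div_iff₀ h5]
                linarith only [h4]
              have h8 : 0 ≤ ε ^ 2 * (ε₀ ^ 2)⁻¹ := by (clear * - hε hε₁ hε₂; positivity)
              linarith
            have h9 : -(1 / (1 + (u x / ε) ^ 2) * ⟪gradient u x, G x⟫) ≤
                1 / (1 + (u x / ε) ^ 2) * |⟪gradient u x, G x⟫| := by
              have := neg_abs_le ⟪gradient u x, G x⟫
              have h10 : 0 < 1 / (1 + (u x / ε) ^ 2) := by (clear * - hux hε; positivity)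
              nlinarith only [this, h10]
            have h11 := mul_le_mul_of_nonneg_right h3 (abs_nonneg ⟪gradient u x, G x⟫)
            linarith only [hnn', h9, h11]
        · rw [gradient_eq_zero_of_eq_zero h0 hux.symm, inner_zero_left, mul_zero, neg_zero]
          simp only [abs_zero, mul_zero, add_zero]
          exact hnn'
      · rw [image_eq_zero_of_notMem_tsupport hxS, inner_zero_right, mul_zero, neg_zero]
        simp only [abs_zero, mul_zero, add_zero]
        exact hnn'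
    rw [integral_add hI1 ((hi0.abs.const_mul _).const_mul _), integral_indicator hms,
      integral_const_mul, integral_const_mul, integral_const_mul] at hle
    have h12 := hC ε hε
    have h13 : ε⁻¹ * ∫ x, -(1 / (1 + (u x / ε) ^ 2) * ⟪gradient u x, G x⟫) ≤
        ε⁻¹ * (η * (C * ε) + ε ^ 2 * ((ε₀ ^ 2)⁻¹ * ∫ x, |⟪gradient u x, G x⟫|)) := by
      gcongr
      refine hle.trans ?_
      (clear * - h12 hη; gcongr)
    refine h13.trans (le_of_eq ?_)
    (clear * - hε₀pos hε; field_simp)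
  -- the limit
  have hlim : Tendsto (fun n : ℕ => ∫ x, Real.arctan (u x / (1 / ((n : ℝ) + 1))) * divg G x) atTop
      (𝓝 (∫ x, (Real.pi / 2) * ({y | 0 < u y}.indicator (divg G) x))) := by
    refine tendsto_integral_of_dominated_convergence (fun x => 2 * |divg G x|) ?_
      (hdi.abs.const_mul 2) ?_ ?_
    · intro n
      exact ((Real.measurable_arctan.comp (hmu.div_const _)).mul
        hdc.measurable).aestronglyMeasurable
    · intro n
      refine Eventually.of_forall fun x => ?_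
      rw [Real.norm_eq_abs, abs_mul]
      exact mul_le_mul_of_nonneg_right (abs_arctan_le _) (abs_nonneg _)
    · refine Eventually.of_forall fun x => ?_
      rcases (h0 x).lt_or_eq with hux | hux
      · rw [indicator_of_mem (show x ∈ {y | 0 < u y} from hux)]
        refine Tendsto.mul_const _ ?_
        have h1 : Tendsto (fun n : ℕ => u x / (1 / ((n : ℝ) + 1))) atTop atTop := by
          have : ∀ n : ℕ, u x / (1 / ((n : ℝ) + 1)) = u x * ((n : ℝ) + 1) := by
            intro n; (clear * - hux; field_simp)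
          simp_rw [this]
          exact (tendsto_natCast_atTop_atTop.atTop_add tendsto_const_nhds).const_mul_atTop hux
        exact (Real.tendsto_arctan_atTop.mono_right nhdsWithin_le_nhds).comp h1
      · rw [indicator_of_notMem (show x ∉ {y | 0 < u y} from fun h => by
          rw [mem_ofPred_eq] at h; linarith only [hux, h]), ← hux]
        simp only [one_div, div_inv_eq_mul, zero_mul, Real.arctan_zero, mul_zero, tendsto_const_nhds_iff]
  rw [integral_const_mul, integral_indicator hΩm] at hlim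
  have hfin : ∀ η : ℝ, 0 < η → Real.pi / 2 * ∫ x in {y | 0 < u y}, divg G x ≤ C * η := by
    intro η hη
    obtain ⟨C', hC'⟩ := key η hη
    have h1 : Tendsto (fun n : ℕ => C * η + C' * (1 / ((n : ℝ) + 1))) atTop (𝓝 (C * η)) := by
      have := (tendsto_one_div_add_atTop_nhds_zero_nat (𝕜 := ℝ)).const_mul C'
      simpa only [one_div, mul_zero, add_zero] using this.const_add (C * η)
    exact le_of_tendsto_of_tendsto' hlim h1 fun n => hC' _ (by (clear * -; positivity))
  have h2 : Real.pi / 2 * ∫ x in {y | 0 < u y}, divg G x ≤ 0 := by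
    refine le_of_forall_pos_le_add fun η hη => ?_
    have h3 := hfin (η / (C + 1)) (by (clear * - hη hC0; positivity))
    have h4 : C * (η / (C + 1)) ≤ η := by
      rw [mul_div_assoc', div_le_iff₀ (by (clear * - hC0; positivity))]
      nlinarith only [hη]
    linarith
  have h3 : 0 < Real.pi / 2 := by positivity
  by_contra hcon
  rw [not_le] at hcon
  exact absurd h2 (not_le.2 (mul_pos h3 hcon))

end MCpart

/-- The global stability inequality for smooth test functions. -/
def StabS (u : E d → ℝ) : Prop :=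
  ∀ (N : Set (E d)) (U : E d → ℝ), LocalExt u N U → ContDiff ℝ ∞ U →
    ∀ (φ : E d → ℝ), ContDiff ℝ ∞ φ → (∀ x, 0 ≤ φ x) → HasCompactSupport φ →
    tsupport φ ⊆ N → ∀ (F : E d → E d), ContDiff ℝ ∞ F → HasCompactSupport F → tsupport F ⊆ N →
    (∀ x ∈ N, x ∈ frontier {y | 0 < u y} → 0 ≤ ⟪F x, gradient U x⟫ + curv U x * φ x ^ 2) →
    ∫ x in {y | 0 < u y}, divg F x ≤ ∫ x in {y | 0 < u y}, ‖fderiv ℝ φ x‖ ^ 2


section
open C2

theorem global' {u : E d → ℝ} (H : StabS u) {N : Set (E d)} {U : E d → ℝ}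
    (hU : LocalExt u N U) (hUs : ContDiff ℝ ∞ U) {c ψ : E d → ℝ} {V : E d → E d}
    (hc : ContDiff ℝ ∞ c) (hψ : ContDiff ℝ ∞ ψ) (hV : ContDiff ℝ ∞ V) (hc0 : ∀ x, 0 ≤ c x)
    (hψ0 : ∀ x, 0 ≤ ψ x) (hψc : HasCompactSupport ψ) (hψN : tsupport ψ ⊆ N)
    (hb : ∀ x ∈ N, x ∈ frontier {y | 0 < u y} →
      ⟪V x, gradient U x⟫ ≤ c x * (⟪gradient c x, gradient U x⟫ + curv U x * c x)) :
    ∫ x in {y | 0 < u y}, ψ x ^ 2 * (c x * lap c x - divg V x) ≤
      ∫ x in {y | 0 < u y}, (c x ^ 2 * ‖gradient ψ x‖ ^ 2 + 2 * ψ x * ⟪gradient ψ x, V x⟫) := by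
  have hgc := contDiff_gradient hc
  have hgψ := contDiff_gradient hψ
  have hW : ContDiff ℝ ∞ (fun y => c y • gradient c y - V y) := (hc.smul hgc).sub hV
  have hφs : ContDiff ℝ ∞ (fun y => ψ y * c y) := hψ.mul hc
  have hFs : ContDiff ℝ ∞ (fun y => (ψ y ^ 2) • (c y • gradient c y - V y)) :=
    (hψ.pow 2).smul hW
  have hφt : tsupport (fun y => ψ y * c y) ⊆ tsupport ψ := tsupport_mul_subset_left
  have hFt : tsupport (fun y => (ψ y ^ 2) • (c y • gradient c y - V y)) ⊆ tsupport ψ := by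
    refine closure_minimal ?_ (isClosed_tsupport _)
    intro x hx
    refine subset_tsupport _ ?_
    intro h0
    apply hx
    simp [h0]
  have hφc : HasCompactSupport (fun y => ψ y * c y) := hψc.of_isClosed_subset (isClosed_tsupport _) hφt
  have hFc : HasCompactSupport (fun y => (ψ y ^ 2) • (c y • gradient c y - V y)) :=
    hψc.of_isClosed_subset (isClosed_tsupport _) hFt
  have key := H N U hU hUs _ hφs (fun x => mul_nonneg (hψ0 x) (hc0 x)) hφc
    (hφt.trans hψN) _ hFs hFc (hFt.trans hψN) (by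
      intro x hx hxf
      have h1 := hb x hx hxf
      have h2 : ⟪(ψ x ^ 2) • (c x • gradient c x - V x), gradient U x⟫ +
          curv U x * (ψ x * c x) ^ 2 = ψ x ^ 2 *
          (c x * (⟪gradient c x, gradient U x⟫ + curv U x * c x) - ⟪V x, gradient U x⟫) := by
        rw [real_inner_smul_left, inner_sub_left, real_inner_smul_left]
        ring
      rw [h2]
      exact mul_nonneg (sq_nonneg _) (sub_nonneg.2 h1))
  -- the four functions
  have c1 : Continuous (fun x => ‖fderiv ℝ (fun y => ψ y * c y) x‖ ^ 2) :=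
    ((hφs.continuous_fderiv (by simp)).norm).pow 2
  have c2 : Continuous (divg (fun y => (ψ y ^ 2) • (c y • gradient c y - V y))) :=
    contDiff_divg hFs
  have c3 : Continuous (fun x => c x ^ 2 * ‖gradient ψ x‖ ^ 2 + 2 * ψ x * ⟪gradient ψ x, V x⟫) := by
    have e1 := hc.continuous
    have e2 := hψ.continuous
    have e3 := hgψ.continuous
    have e4 := hV.continuous
    fun_prop
  have c4 : Continuous (fun x => ψ x ^ 2 * (c x * lap c x - divg V x)) := by
    have e1 := hc.continuous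
    have e2 := hψ.continuous
    have e3 := continuous_lap hc
    have e4 := contDiff_divg hV
    fun_prop
  have hint : ∀ f : E d → ℝ, Continuous f → (∀ x, x ∉ tsupport ψ → f x = 0) →
      IntegrableOn f {y | 0 < u y} := by
    intro f hf h0
    exact (hf.integrable_of_hasCompactSupport (HasCompactSupport.intro hψc h0)).integrableOn
  have i1 := hint _ c1 (by
    intro x hx
    have : x ∉ tsupport (fun y => ψ y * c y) := fun h => hx (hφt h)
    have h1 : (fun y => ψ y * c y) =ᶠ[𝓝 x] fun _ => 0 := notMem_tsupport_iff_eventuallyEq.mp this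
    show ‖fderiv ℝ (fun y => ψ y * c y) x‖ ^ 2 = 0
    rw [h1.fderiv_eq]
    simp)
  have i2 := hint _ c2 (by
    intro x hx
    have : x ∉ tsupport (fun y => (ψ y ^ 2) • (c y • gradient c y - V y)) := fun h => hx (hFt h)
    have h1 : (fun y => (ψ y ^ 2) • (c y • gradient c y - V y)) =ᶠ[𝓝 x] fun _ => 0 :=
      notMem_tsupport_iff_eventuallyEq.mp this
    rw [divg, h1.fderiv_eq]
    simp only [fderiv_fun_const, Pi.zero_apply, zero_apply, PiLp.zero_apply, Finset.sum_const_zero])
  have i3 := hint _ c3 (by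
    intro x hx
    rw [gradient_eq_zero_off hx]
    simp)
  have i4 := hint _ c4 (by
    intro x hx
    rw [image_eq_zero_of_notMem_tsupport hx]
    simp only [ne_eq, OfNat.ofNat_ne_zero, not_false_eq_true, zero_pow, zero_mul])
  have e1 := integral_sub i1 i2
  have e2 := integral_sub i3 i4
  have e3 : ∫ x in {y | 0 < u y}, (‖fderiv ℝ (fun y => ψ y * c y) x‖ ^ 2 -
      divg (fun y => (ψ y ^ 2) • (c y • gradient c y - V y)) x) =
      ∫ x in {y | 0 < u y}, ((c x ^ 2 * ‖gradient ψ x‖ ^ 2 + 2 * ψ x * ⟪gradient ψ x, V x⟫) -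
        ψ x ^ 2 * (c x * lap c x - divg V x)) := by
    congr 1
    funext x
    exact pointwise hc hψ hV x
  have e4 : (0 : ℝ) ≤ (∫ x in {y | 0 < u y}, ‖fderiv ℝ (fun y => ψ y * c y) x‖ ^ 2) -
      ∫ x in {y | 0 < u y}, divg (fun y => (ψ y ^ 2) • (c y • gradient c y - V y)) x :=
    sub_nonneg.2 key
  rw [← e1, e3, e2] at e4
  exact sub_nonneg.1 e4

end

theorem stability_fields' {u : E d → ℝ} (H : StabS u) (huc : Continuous u)
    {N : Set (E d)} {U : E d → ℝ} (hU : LocalExt u N U)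
    {c : E d → ℝ} (hc : ContDiffOn ℝ ∞ c N) (hc0 : ∀ x ∈ N, 0 ≤ c x)
    {V : E d → E d} (hV : ContDiffOn ℝ ∞ V N)
    (hb : ∀ x ∈ N, x ∈ frontier {y | 0 < u y} →
      ⟪V x, gradient U x⟫ ≤ c x * (⟪gradient c x, gradient U x⟫ + curv U x * c x))
    {η : E d → ℝ} (hη : ContDiff ℝ ∞ η) (hη0 : ∀ x, 0 ≤ η x) (hηc : HasCompactSupport η)
    (hηN : closure {y | 0 < u y} ∩ tsupport η ⊆ N) :
    ∫ x in {y | 0 < u y}, η x ^ 2 * (c x * lap c x - divg V x) ≤
      ∫ x in {y | 0 < u y}, (c x ^ 2 * ‖gradient η x‖ ^ 2 + 2 * η x * ⟪gradient η x, V x⟫) := by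
  have hN := hU.isOpen
  have hK : IsCompact (closure {y | 0 < u y} ∩ tsupport η) := hηc.inter_left isClosed_closure
  obtain ⟨χ₁, h₁s, -, h₁N, h₁1, h₁0⟩ := C2.exists_cutoff hK hN hηN
  set N' : Set (E d) := interior {x | χ₁ x = 1} with hN'
  have hN'o : IsOpen N' := isOpen_interior
  have hKN' : closure {y | 0 < u y} ∩ tsupport η ⊆ N' :=
    subset_interior_iff_mem_nhdsSet.mpr h₁1
  have hN'1 : ∀ x ∈ N', ∀ᶠ y in 𝓝 x, χ₁ y = 1 := by
    intro x hx
    filter_upwards [hN'o.mem_nhds hx] with y hy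
    have h : y ∈ {x | χ₁ x = 1} := interior_subset hy
    exact h
  have hN'N : N' ⊆ N := by
    intro x hx
    refine h₁N (subset_tsupport _ ?_)
    have h : x ∈ {x | χ₁ x = 1} := interior_subset hx
    have h' : χ₁ x = 1 := h
    rw [Function.mem_support, h']
    exact one_ne_zero
  obtain ⟨χ, hχs, hχc, hχN, hχ1, hχ0⟩ := C2.exists_cutoff hK hN'o hKN'
  have heq : ∀ {G : Type} [NormedAddCommGroup G] [NormedSpace ℝ G] (f : E d → G), ∀ x ∈ N',
      (fun y => χ₁ y • f y) =ᶠ[𝓝 x] f := by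
    intro G _ _ f x hx
    filter_upwards [hN'1 x hx] with y hy
    rw [hy, one_smul]
  have hpt : ∀ {G : Type} [NormedAddCommGroup G] [NormedSpace ℝ G] (f : E d → G), ∀ x ∈ N',
      χ₁ x • f x = f x := by
    intro G _ _ f x hx
    rw [(hN'1 x hx).self_of_nhds, one_smul]
  have hUs : ContDiff ℝ ∞ (fun x => χ₁ x • U x) := C2.contDiff_smul hN h₁s hU.smooth h₁N
  have hcs : ContDiff ℝ ∞ (fun x => χ₁ x • c x) := C2.contDiff_smul hN h₁s hc h₁N
  have hVs : ContDiff ℝ ∞ (fun x => χ₁ x • V x) := C2.contDiff_smul hN h₁s hV h₁N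
  have hU' : LocalExt u N' (fun x => χ₁ x • U x) := by
    refine ⟨hN'o, hUs.contDiffOn, ?_, ?_⟩
    · intro x hx hux
      rw [hpt U x hx]
      exact hU.eq x (hN'N hx) hux
    · intro x hx hxf
      rw [(heq U x hx).gradient_eq]
      exact hU.grad x (hN'N hx) hxf
  have hcs0 : ∀ x, 0 ≤ χ₁ x • c x := by
    intro x
    by_cases hx : x ∈ N
    · exact mul_nonneg (h₁0 x) (hc0 x hx)
    · have : χ₁ x = 0 := image_eq_zero_of_notMem_tsupport fun h => hx (h₁N h)
      rw [this, zero_smul]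
  have hψs : ContDiff ℝ ∞ (fun x => χ x * η x) := hχs.mul hη
  have hψχ : tsupport (fun x => χ x * η x) ⊆ tsupport χ := tsupport_mul_subset_left
  have hψη : tsupport (fun x => χ x * η x) ⊆ tsupport η := tsupport_mul_subset_right
  have key := global' H hU' hUs hcs hψs hVs hcs0 (fun x => mul_nonneg (hχ0 x) (hη0 x))
    (hχc.of_isClosed_subset (isClosed_tsupport _) hψχ) (hψχ.trans hχN) (by
      intro x hx hxf
      rw [(heq U x hx).gradient_eq, (heq c x hx).gradient_eq, C2.curv_congr (heq U x hx),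
        hpt c x hx, hpt V x hx]
      exact hb x (hN'N hx) hxf)
  have hΩ : MeasurableSet {y | 0 < u y} := (isOpen_lt continuous_const huc).measurableSet
  have e1 : ∫ x in {y | 0 < u y}, (χ x * η x) ^ 2 *
      ((χ₁ x • c x) * lap (fun x => χ₁ x • c x) x - divg (fun x => χ₁ x • V x) x) =
      ∫ x in {y | 0 < u y}, η x ^ 2 * (c x * lap c x - divg V x) := by
    refine setIntegral_congr_fun hΩ ?_
    intro x hx
    by_cases hxη : x ∈ tsupport η
    · have hxK : x ∈ closure {y | 0 < u y} ∩ tsupport η := ⟨subset_closure hx, hxη⟩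
      have hxN' := hKN' hxK
      have h1 : χ x = 1 := hχ1.self_of_nhdsSet x hxK
      simp only [h1, one_mul]
      rw [hpt c x hxN', C2.lap_congr (heq c x hxN'), C2.divg_congr (heq V x hxN')]
    · have h0 : η x = 0 := image_eq_zero_of_notMem_tsupport hxη
      simp [h0]
  have e2 : ∫ x in {y | 0 < u y}, ((χ₁ x • c x) ^ 2 * ‖gradient (fun x => χ x * η x) x‖ ^ 2 +
      2 * (χ x * η x) * ⟪gradient (fun x => χ x * η x) x, χ₁ x • V x⟫) =
      ∫ x in {y | 0 < u y}, (c x ^ 2 * ‖gradient η x‖ ^ 2 + 2 * η x * ⟪gradient η x, V x⟫) := by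
    refine setIntegral_congr_fun hΩ ?_
    intro x hx
    by_cases hxη : x ∈ tsupport η
    · have hxK : x ∈ closure {y | 0 < u y} ∩ tsupport η := ⟨subset_closure hx, hxη⟩
      have hxN' := hKN' hxK
      have h1 : χ x = 1 := hχ1.self_of_nhdsSet x hxK
      have h2 : (fun x => χ x * η x) =ᶠ[𝓝 x] η := by
        have h3 : ∀ᶠ y in 𝓝 x, χ y = 1 := hχ1.filter_mono (nhds_le_nhdsSet hxK)
        filter_upwards [h3] with y hy
        rw [hy, one_mul]
      simp only
      rw [hpt c x hxN', hpt V x hxN', h2.gradient_eq, h1, one_mul]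
    · have h0 : η x = 0 := image_eq_zero_of_notMem_tsupport hxη
      have h1 : gradient η x = 0 := C2.gradient_eq_zero_off hxη
      have h2 : gradient (fun x => χ x * η x) x = 0 :=
        C2.gradient_eq_zero_off fun h => hxη (hψη h)
      simp only [smul_eq_mul, h2, norm_zero, ne_eq, OfNat.ofNat_ne_zero, not_false_eq_true, zero_pow, mul_zero, h0, inner_zero_left, add_zero, h1]
  rw [e1, e2] at key
  exact key

theorem stability_WZ' {u : E d → ℝ} (H : StabS u) (huc : Continuous u) {N : Set (E d)} {U : E d → ℝ} (hU : LocalExt u N U)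
    {W : E d → ℝ} (hW : ContDiffOn ℝ ∞ W N) (hW0 : ∀ x ∈ N, 0 < W x)
    {Z : E d → E d} (hZ : ContDiffOn ℝ ∞ Z N)
    (hb : ∀ x ∈ N, x ∈ frontier {y | 0 < u y} →
      0 ≤ ⟪Z x, gradient U x⟫ + curv U x * W x)
    {η : E d → ℝ} (hη : ContDiff ℝ ∞ η) (hη0 : ∀ x, 0 ≤ η x) (hηc : HasCompactSupport η)
    (hηN : closure {y | 0 < u y} ∩ tsupport η ⊆ N) :
    ∫ x in {y | 0 < u y}, η x ^ 2 * (divg Z x - ‖gradient W x‖ ^ 2 / (4 * W x)) ≤
      ∫ x in {y | 0 < u y}, (W x * ‖gradient η x‖ ^ 2
        + 2 * η x * ⟪gradient η x, (1 / 2 : ℝ) • gradient W x - Z x⟫) := by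
  have hN := hU.isOpen
  obtain ⟨c, hcdef⟩ : ∃ c : E d → ℝ, c = fun x => √(W x) := ⟨_, rfl⟩
  have hc : ContDiffOn ℝ ∞ c N := by
    rw [hcdef]
    intro x hx
    exact ((hW.contDiffAt (hN.mem_nhds hx)).sqrt (hW0 x hx).ne').contDiffWithinAt
  have hc0 : ∀ x ∈ N, 0 ≤ c x := fun x _ => by rw [hcdef]; exact Real.sqrt_nonneg _
  have hcpos : ∀ x ∈ N, 0 < c x := fun x hx => by rw [hcdef]; exact Real.sqrt_pos.2 (hW0 x hx)
  have hcW : ∀ x ∈ N, c x ^ 2 = W x := fun x hx => by rw [hcdef]; exact Real.sq_sqrt (hW0 x hx).le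
  have hcd : ∀ x ∈ N, DifferentiableAt ℝ c x := fun x hx =>
    (hc.contDiffAt (hN.mem_nhds hx)).differentiableAt (by norm_num)
  have hgc := M5a.contDiffOn_gradient hN hc
  have hgcd : ∀ x ∈ N, DifferentiableAt ℝ (gradient c) x := fun x hx =>
    (hgc.contDiffAt (hN.mem_nhds hx)).differentiableAt (by norm_num)
  have hZd : ∀ x ∈ N, DifferentiableAt ℝ Z x := fun x hx =>
    (hZ.contDiffAt (hN.mem_nhds hx)).differentiableAt (by norm_num)
  have hgW : ∀ x ∈ N, gradient W x = (2 * c x) • gradient c x := by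
    intro x hx
    have h1 : W =ᶠ[𝓝 x] fun y => c y ^ 2 := by
      filter_upwards [hN.mem_nhds hx] with y hy
      exact (hcW y hy).symm
    rw [h1.gradient_eq, C2.gradient_sq (hcd x hx)]
  have hV : ContDiffOn ℝ ∞ (fun x => (1 / 2 : ℝ) • gradient W x - Z x) N :=
    ((M5a.contDiffOn_gradient hN hW).const_smul (1 / 2 : ℝ)).sub hZ
  have key := stability_fields' H huc hU hc hc0 hV (by
    intro x hx hxf
    have h1 := hb x hx hxf
    rw [hgW x hx, inner_sub_left, smul_smul, real_inner_smul_left]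
    have h2 := hcW x hx
    rw [← h2] at h1
    linarith only [h1]) hη hη0 hηc hηN
  have hopen : IsOpen {y | 0 < u y} := isOpen_lt continuous_const huc
  have hoff : ∀ x, x ∈ {y | 0 < u y} → x ∉ N → η x = 0 ∧ gradient η x = 0 := by
    intro x hx hxN
    have h1 : x ∉ tsupport η := fun h => hxN (hηN ⟨subset_closure hx, h⟩)
    exact ⟨image_eq_zero_of_notMem_tsupport h1, C2.gradient_eq_zero_off h1⟩
  have e1 : ∫ x in {y | 0 < u y}, η x ^ 2 * (divg Z x - ‖gradient W x‖ ^ 2 / (4 * W x)) =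
      ∫ x in {y | 0 < u y}, η x ^ 2 *
        (c x * lap c x - divg (fun x => (1 / 2 : ℝ) • gradient W x - Z x) x) := by
    refine setIntegral_congr_fun hopen.measurableSet fun x hx => ?_
    by_cases hxN : x ∈ N
    · have h1 : (fun x => (1 / 2 : ℝ) • gradient W x - Z x) =ᶠ[𝓝 x]
          fun y => c y • gradient c y - Z y := by
        filter_upwards [hN.mem_nhds hxN] with y hy
        rw [hgW y hy, smul_smul]
        congr 2
        ring
      have h2 : divg (fun x => (1 / 2 : ℝ) • gradient W x - Z x) x =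
          c x * lap c x + ‖gradient c x‖ ^ 2 - divg Z x := by
        have h5 : DifferentiableAt ℝ (fun y => c y • gradient c y) x :=
          (hcd x hxN).smul (hgcd x hxN)
        rw [M5a.divg_congr h1, C2.divg_sub h5 (hZd x hxN),
          C2.divg_smul (hcd x hxN) (hgcd x hxN), M5a.divg_gradient (hgcd x hxN),
          real_inner_self_eq_norm_sq]
      have h3 : ‖gradient W x‖ ^ 2 / (4 * W x) = ‖gradient c x‖ ^ 2 := by
        rw [hgW x hxN, norm_smul, ← hcW x hxN, mul_pow, Real.norm_eq_abs, sq_abs]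
        have := hcpos x hxN
        field_simp
        ring
      show η x ^ 2 * (divg Z x - ‖gradient W x‖ ^ 2 / (4 * W x)) = η x ^ 2 *
        (c x * lap c x - divg (fun x => (1 / 2 : ℝ) • gradient W x - Z x) x)
      rw [h2, h3]
      ring
    · have h1 := (hoff x hx hxN).1
      show η x ^ 2 * _ = η x ^ 2 * _
      rw [h1]
      ring
  have e2 : ∫ x in {y | 0 < u y}, (W x * ‖gradient η x‖ ^ 2
        + 2 * η x * ⟪gradient η x, (1 / 2 : ℝ) • gradient W x - Z x⟫) =
      ∫ x in {y | 0 < u y}, (c x ^ 2 * ‖gradient η x‖ ^ 2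
        + 2 * η x * ⟪gradient η x, (1 / 2 : ℝ) • gradient W x - Z x⟫) := by
    refine setIntegral_congr_fun hopen.measurableSet fun x hx => ?_
    by_cases hxN : x ∈ N
    · show W x * _ + _ = c x ^ 2 * _ + _
      rw [hcW x hxN]
    · have h1 := hoff x hx hxN
      show W x * ‖gradient η x‖ ^ 2 + 2 * η x * _ = c x ^ 2 * ‖gradient η x‖ ^ 2 + 2 * η x * _
      rw [h1.1, h1.2]
      simp
  rw [e1, e2]
  exact key

theorem vv_le_one' {u : E d → ℝ} (hc : Continuous u)
    (hle : ∀ x, 0 < u x → ‖gradient u x‖ ≤ 1) {N : Set (E d)} {U : E d → ℝ} (hU : LocalExt u N U)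
    (hN : ∀ y, 0 < u y → y ∈ N) {x : E d} (hx : 0 < u x) : vv U x ≤ 1 := by
  have h1 := hle x hx
  have ho : IsOpen {y | 0 < u y} := isOpen_lt continuous_const hc
  have heq : U =ᶠ[𝓝 x] u := by
    filter_upwards [ho.mem_nhds hx] with z hz
    exact hU.eq z (hN z hz) hz
  have hgr : gradient u x = gradient U x := by
    unfold gradient; rw [heq.fderiv_eq]
  rw [hgr] at h1
  have h2 := norm_gradient_sq U x
  unfold vv
  rw [← h2]
  linarith only [mul_nonneg (sub_nonneg.2 h1) (sub_nonneg.2 (norm_nonneg (gradient U x))), mul_nonneg (sub_nonneg.2 h1) (sub_nonneg.2 h1)]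

theorem lap_ext {u : E d → ℝ} (hc : Continuous u) (hharm : Harm (pos u) u) {N : Set (E d)}
    {U : E d → ℝ} (hU : LocalExt u N U) {x : E d} (hx : x ∈ N) (hux : 0 < u x) : lap U x = 0 := by
  rw [← hharm.2 x hux]
  exact (rM1_lap_congr (hU.mc_eventuallyEq hc hx hux)).symm


theorem reduction_stable (hm : 2 ≤ m) {α : ℝ} {Φ : Fam} (hΦ : Cert m α Φ) {u : E (m + 1) → ℝ}
    (h0 : ∀ x, 0 ≤ u x) (hharm : Harm (pos u) u) (hstab : M5.StabWZ u)
    (hhom : ∀ r : ℝ, 0 < r → ∀ x, u (r • x) = r * u x) (hr : IsRegularAwayFromZero u) :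
    (∀ x, u x = 0) ∨ ∃ e : E (m + 1), ‖e‖ = 1 ∧ ∀ x, u x = max ⟪x, e⟫ 0 := by
  have hd : 2 ≤ m + 1 := by omega
  have hc : Continuous u := hr.1
  obtain ⟨N₀, U, hU, hN₀⟩ := ModI.localExt_of_regular hr
  have hΩN : ∀ y, 0 < u y → y ∈ N₀ := fun y hy =>
    hN₀ ⟨subset_closure hy, fun h => by
      rw [mem_singleton_iff.mp h, ModI.hom_zero hhom] at hy; exact lt_irrefl _ hy⟩
  have hlap : ∀ x ∈ N₀, 0 < u x → lap U x = 0 := fun x hx hux =>
    lap_ext hc hharm hU hx hux
  have hle : ∀ x, 0 < u x → ‖gradient u x‖ ≤ 1 := fun x hx =>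
    ModI.grad_le_one_core hd hc h0 hhom hU hN₀ (fun y hy => hlap y (hΩN y hy) hy) hx
  have hv : ∀ x, 0 < u x → vv U x ≤ 1 := fun x hx =>
    vv_le_one' hc hle hU hΩN hx
  have hΩo : IsOpen {y | 0 < u y} := isOpen_lt continuous_const hc
  have hα := hΦ.hα
  obtain ⟨γ, hγ⟩ : ∃ γ : ℝ, γ = (m - 1 : ℝ) / 2 - α := ⟨_, rfl⟩
  obtain ⟨ε, C0, hε, hC0, hint⟩ := interior_ineq hΦ hm hγ
  obtain ⟨C1, hC1, hbd⟩ := boundary_ineq hΦ hm
  obtain ⟨B, hB, hfb⟩ := fields_bound hd hc hhom hU hN₀ hv hα Φ
  obtain ⟨c, hc0, hcw⟩ := cert_w hΦ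
  have hD2 : ∀ x, 0 < u x → ∑ i, ∑ j, P2 U i j x ^ 2 = 0 := by
    refine M5.assembly_aux hc hstab hhom hU hN₀ hα (γ := γ) ?_ hε hB ?_
    · rw [hγ]; push_cast; ring
    intro R hR
    have hR0 : 0 < R := by linarith
    have hAc := M6.isCompact_ann {y | 0 < u y} (1 / (2 * R)) (2 * R)
    have hAN : {x : E (m + 1) | x ∈ closure {y | 0 < u y} ∧ 1 / (2 * R) ≤ ‖x‖ ∧ ‖x‖ ≤ 2 * R}
        ⊆ N₀ := by
      rintro x ⟨hx1, hx2, _⟩
      exact M6.mem_of_closure hN₀ hx1 (lt_of_lt_of_le (by positivity) hx2)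
    obtain ⟨M, hM0, hM⟩ := M6.exists_bound hAc
      ((M6.continuousOn_S0 hU.isOpen hU.smooth).mono hAN)
    obtain ⟨MU, hMU0, hMU⟩ := M6.exists_bound hAc (hU.smooth.continuousOn.mono hAN)
    have hM1 : 0 ≤ (M + 1) ^ (α - 1 / 2) := Real.rpow_nonneg (by linarith) _
    have hM2 : 0 ≤ (M + 1) ^ α := Real.rpow_nonneg (by linarith) _
    refine ⟨C0 * (M + 1) ^ α + C0 * (M + 1) ^ α * (4 * R ^ 2)
      + 2 * |γ| * (C1 * (M + 1) ^ (α - 1 / 2)) * MU * (4 * R ^ 2)
      + C1 * (M + 1) ^ (α - 1 / 2), by (clear * - hC0 hM0 hR hC1 hMU0; positivity), fun δ hδ hδ1 => ?_⟩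
    -- bounds of `S` on the annulus
    have hSS : ∀ x, x ∈ closure {y | 0 < u y} → 1 / (2 * R) < ‖x‖ → ‖x‖ < 2 * R →
        SS δ U x ≤ M + 1 := by
      intro x hx h1 h2
      have := hM x ⟨hx, h1.le, h2.le⟩
      rw [M6.SS_eq]
      linarith only [le_abs_self (M6.S0 U x), this, hδ1]
    -- the domain
    have hcont : ContinuousOn (fun x => 1 + U x * FF δ U x) N₀ :=
      continuousOn_const.add (hU.smooth.continuousOn.mul
        (M6.continuousOn_FF hU.isOpen hU.smooth δ))
    obtain ⟨N1, hN1⟩ : ∃ N1 : Set (E (m + 1)),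
        N1 = N₀ ∩ (fun x => 1 + U x * FF δ U x) ⁻¹' Ioi 0 := ⟨_, rfl⟩
    have hN1o : IsOpen N1 := by
      rw [hN1]; exact hcont.isOpen_inter_preimage hU.isOpen isOpen_Ioi
    have hN1N : N1 ⊆ N₀ := by rw [hN1]; exact inter_subset_left
    have hU1 : ContDiffOn ℝ ∞ U N1 := hU.smooth.mono hN1N
    have h1 : ∀ x ∈ N1, 0 < 1 + U x * FF δ U x := by
      rw [hN1]; exact fun x hx => hx.2
    have hWs : ContDiffOn ℝ ∞ (WW Φ α δ U) N1 := contDiffOn_lift hN1o hU1 Φ.w hδ h1
    have hZs : ContDiffOn ℝ ∞ (ZZ Φ α δ (C1 * δ * (M + 1) ^ (α - 1 / 2)) U) N1 :=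
      contDiffOn_ZZ hN1o hU1 Φ hδ h1
    have hcl1 : ∀ x ∈ closure {y | 0 < u y}, x ∈ N₀ → x ∈ N1 := by
      intro x hx hxN
      rw [hN1]
      refine ⟨hxN, ?_⟩
      show 0 < 1 + U x * FF δ U x
      rw [eq_on_closure hc hU hxN hx]
      have := mul_nonneg (h0 x) (M6.FF_pos hδ U x).le
      linarith
    have hWΩ : ∀ x, 0 < u x → δ ^ α * c ≤ WW Φ α δ U x := by
      intro x hx
      obtain ⟨lam, ξ, T, hF⟩ := exists_frame hhom hc hU hlap (hΩN x hx) hx hδ
      have hUx : U x = u x := hU.eq x (hΩN x hx) hx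
      exact M6.WW_ge (by linarith) hc0.le hδ
        (M6.lift_ge hcw hδ hF (by rw [hUx]; exact hx.le) (hv x hx))
    have hWcl : ∀ x ∈ closure {y | 0 < u y}, x ∈ N₀ → 0 < WW Φ α δ U x := by
      intro x hx hxN
      have hx1 := hcl1 x hx hxN
      have h2 := M6.ge_on_closure hWΩ hx
        ((hWs.contDiffAt (hN1o.mem_nhds hx1)).continuousAt)
      have h3 : 0 < δ ^ α * c := mul_pos (Real.rpow_pos_of_pos hδ _) hc0
      linarith
    refine ⟨(N1 ∩ {x | 1 / (2 * R) < ‖x‖ ∧ ‖x‖ < 2 * R}) ∩ (WW Φ α δ U) ⁻¹' Ioi 0,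
      WW Φ α δ U, ZZ Φ α δ (C1 * δ * (M + 1) ^ (α - 1 / 2)) U,
      ?_, ?_, ?_, ?_, ?_, ?_, ?_, ?_, ?_, ?_⟩
    · refine (hWs.continuousOn.mono inter_subset_left).isOpen_inter_preimage
        (hN1o.inter ?_) isOpen_Ioi
      exact (isOpen_lt continuous_const continuous_norm).inter
        (isOpen_lt continuous_norm continuous_const)
    · exact fun x hx => hN1N hx.1.1
    · intro x hx hx1 hx2
      have hn : 0 < ‖x‖ := lt_of_lt_of_le (by positivity) hx1
      have hxN := M6.mem_of_closure hN₀ hx hn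
      refine ⟨⟨hcl1 x hx hxN, ?_, ?_⟩, hWcl x hx hxN⟩
      · refine lt_of_lt_of_le ?_ hx1
        exact one_div_lt_one_div_of_lt hR0 (by linarith)
      · linarith
    · exact hWs.mono fun x hx => hx.1.1
    · exact hZs.mono fun x hx => hx.1.1
    · exact fun x hx => hx.2
    · rintro x ⟨⟨hx1, hx2, hx3⟩, _⟩ hxf
      have hxc : x ∈ closure {y | 0 < u y} := frontier_subset_closure hxf
      have hn : 0 < ‖x‖ := lt_trans (by positivity) hx2
      have hcurv : 0 ≤ curv U x := ModI.curv_nonneg_core hc h0 hle hU (hN1N hx1) hxf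
      have h2 := hbd δ (C1 * δ * (M + 1) ^ (α - 1 / 2)) u U N₀ x hδ hδ1 hc h0 hhom hU hlap
        (hN1N hx1) (norm_pos_iff.1 hn) hxf hcurv
      refine le_trans ?_ h2
      have h3 : FF δ U x ^ (2 * α - 1) ≤ (M + 1) ^ (α - 1 / 2) := by
        rw [M6.FF_rpow hδ, show (2 * α - 1) / 2 = α - 1 / 2 by ring]
        exact Real.rpow_le_rpow (hδ.le.trans (M6.SS_ge δ U x)) (hSS x hxc hx2 hx3) (by linarith only [hα])
      have h4 := mul_le_mul_of_nonneg_left h3 (mul_nonneg hC1 hδ.le)
      linarith only [h4]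
    · rintro x ⟨⟨hx1, hx2, hx3⟩, _⟩ hux
      have hxc : x ∈ closure {y | 0 < u y} := subset_closure hux
      have hn : 0 < ‖x‖ := lt_trans (by positivity) hx2
      have hUx : U x = u x := hU.eq x (hΩN x hux) hux
      obtain ⟨lam, ξ, T, hF⟩ := exists_frame hhom hc hU hlap (hΩN x hux) hux hδ
      have h2 := hint δ (C1 * δ * (M + 1) ^ (α - 1 / 2)) U {y | 0 < u y} x lam ξ T hδ hδ1 hΩo
        (hU.smooth.mono hΩN) (fun z hz => hlap z (hΩN z hz) hz)
        (fun z hz => h1 z (hcl1 z (subset_closure hz) (hΩN z hz))) hux (norm_pos_iff.1 hn)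
        (by rw [hUx]; exact hux) (hv x hux) hF
      rw [M6.FF_rpow hδ, M6.FF_rpow hδ, show 2 * α / 2 = α by ring,
        show (2 * α - 2) / 2 = α - 1 by ring] at h2
      exact M6.absorb hε hC0 hC1 hM1 hα hδ hδ1 (M6.S0_nonneg U x) (M6.SS_eq δ U x)
        (hSS x hxc hx2 hx3) (by linarith) (hMU x ⟨hxc, hx2.le, hx3.le⟩) hR0 hx2 h2
    · exact fun x _ hux => (hfb δ 0 hδ hδ1 x hux).1
    · intro x _ hux
      refine (hfb δ (C1 * δ * (M + 1) ^ (α - 1 / 2)) hδ hδ1 x hux).2.trans ?_
      have h5 : 0 ≤ C1 * δ * (M + 1) ^ (α - 1 / 2) := mul_nonneg (mul_nonneg hC1 hδ.le) hM1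
      rw [abs_of_nonneg h5]
      have h6 : 0 ≤ (C0 * (M + 1) ^ α + C0 * (M + 1) ^ α * (4 * R ^ 2)
        + 2 * |γ| * (C1 * (M + 1) ^ (α - 1 / 2)) * MU * (4 * R ^ 2)) * δ := by (clear * - hC0 hM0 hR hC1 hMU0 hδ; positivity)
      linarith only [h6]
  exact rigidity hd hc h0 hhom hr fun x hx => M6.fderiv2_zero hc hU hΩN hx (hD2 x hx)


/-! ## From the definitions of the statement -/

theorem _root_.Vale.Agent.P098.H709.IsSmoothCone.zero {u U : E d → ℝ} (h : IsSmoothCone u U) :
    u 0 = 0 := by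
  have := h.homogeneous 2 (by norm_num) 0
  rw [smul_zero] at this
  linarith only [this]

theorem IsSmoothCone.regular {u U : E d → ℝ} (h : IsSmoothCone u U) :
    IsRegularAwayFromZero u := by
  obtain ⟨V, hV, hcl, hU⟩ := h.smooth
  exact ⟨h.continuous, V, U, hV, hcl, hU, h.agree, h.boundary⟩

theorem IsSmoothCone.localExt {u U : E d → ℝ} (h : IsSmoothCone u U) :
    ∃ N : Set (E d), LocalExt u N U ∧ closure {y | 0 < u y} \ {0} ⊆ N := by
  obtain ⟨V, hV, hcl, hUs⟩ := h.smooth
  refine ⟨V \ {0}, ⟨hV.sdiff isClosed_singleton, hUs.mono sdiff_subset,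
    fun x _ hx => h.agree x hx, fun x hx hxf => h.boundary x hxf hx.2⟩, ?_⟩
  rintro x ⟨hx1, hx2⟩
  exact ⟨hcl ⟨hx1, hx2⟩, hx2⟩

theorem IsSmoothCone.harm {u U : E d → ℝ} (h : IsSmoothCone u U) : Harm (pos u) u := by
  obtain ⟨N, hU, hcl⟩ := h.localExt
  have hopen : IsOpen (pos u) := isOpen_lt continuous_const h.continuous
  have hN : ∀ x ∈ pos u, x ∈ N := fun x hx => hcl ⟨subset_closure hx, by
    rintro rfl
    have h1 : 0 < u 0 := hx
    rw [h.zero] at h1
    exact lt_irrefl _ h1⟩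
  have hs : ContDiffOn ℝ ∞ u (pos u) := by
    intro x hx
    have h1 : ContDiffAt ℝ ∞ U x := hU.smooth.contDiffAt (hU.isOpen.mem_nhds (hN x hx))
    exact (h1.congr_of_eventuallyEq (hU.mc_eventuallyEq h.continuous (hN x hx) hx)).contDiffWithinAt
  refine ⟨hs, fun x hx => ?_⟩
  have h1 := h.harmonic x hx
  rw [InnerProductSpace.laplacian_eq_iteratedFDeriv_orthonormalBasis u
    (EuclideanSpace.basisFun (Fin d) ℝ)] at h1
  unfold lap
  rw [← h1]
  refine Finset.sum_congr rfl fun i _ => ?_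
  rw [P2_eq_fderiv hopen hs hx i i, iteratedFDeriv_two_apply]
  simp [ee]

/-- If the origin has a smooth extension of `u` nearby, then `u` is linear on `{u > 0}`. -/
theorem IsSmoothCone.linear {u U₀ : E d → ℝ} (h : IsSmoothCone u U₀) {N : Set (E d)}
    {U : E d → ℝ} (hU : LocalExt u N U) (h0N : (0 : E d) ∈ N) :
    ∀ x, 0 < u x → fderiv ℝ (fderiv ℝ u) x = 0 := by
  have hopen : IsOpen (pos u) := isOpen_lt continuous_const h.continuous
  have hUd : HasFDerivAt U (fderiv ℝ U 0) 0 :=
    ((hU.smooth.contDiffAt (hU.isOpen.mem_nhds h0N)).differentiableAt (by simp)).hasFDerivAt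
  have key : ∀ y, 0 < u y → u y = fderiv ℝ U 0 y := by
    intro y hy
    have hl : HasDerivAt (fun t : ℝ => t • y) y 0 := by
      simpa using (hasDerivAt_id (0 : ℝ)).smul_const y
    have hUd' : HasFDerivAt U (fderiv ℝ U 0) ((0 : ℝ) • y) := by rwa [zero_smul]
    have hd : HasDerivAt (fun t : ℝ => U (t • y)) (fderiv ℝ U 0 y) 0 := hUd'.comp_hasDerivAt 0 hl
    have hN : ∀ᶠ t : ℝ in 𝓝 0, t • y ∈ N := by
      have h1 : Tendsto (fun t : ℝ => t • y) (𝓝 0) (𝓝 ((0 : ℝ) • y)) := hl.continuousAt.tendsto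
      rw [zero_smul] at h1
      exact h1.eventually (hU.isOpen.mem_nhds h0N)
    have hev : ∀ᶠ t : ℝ in 𝓝[>] 0, U (t • y) = t * u y := by
      filter_upwards [nhdsWithin_le_nhds hN, self_mem_nhdsWithin] with t ht ht0
      have ht0' : (0 : ℝ) < t := ht0
      have h2 : 0 < u (t • y) := by
        rw [h.homogeneous t ht0']; exact mul_pos ht0' hy
      rw [hU.eq _ ht h2, h.homogeneous t ht0']
    have hU0 : U ((0 : ℝ) • y) = 0 := by
      have h1 : Tendsto (fun t : ℝ => U (t • y)) (𝓝[>] 0) (𝓝 (U ((0 : ℝ) • y))) :=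
        hd.continuousAt.tendsto.mono_left nhdsWithin_le_nhds
      have h2 : Tendsto (fun t : ℝ => t * u y) (𝓝[>] 0) (𝓝 (0 * u y)) :=
        ((continuous_id.mul continuous_const).tendsto (0 : ℝ)).mono_left nhdsWithin_le_nhds
      rw [zero_mul] at h2
      exact tendsto_nhds_unique (h1.congr' hev) h2
    have h3 := (hasDerivAt_iff_tendsto_slope_zero.1 hd)
    have h4 : Tendsto (fun t : ℝ => t⁻¹ • (U ((0 + t) • y) - U ((0 : ℝ) • y))) (𝓝[>] 0)
        (𝓝 (fderiv ℝ U 0 y)) :=
      h3.mono_left (nhdsWithin_mono _ fun t ht => (ne_of_gt ht : t ≠ 0))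
    have h5 : Tendsto (fun t : ℝ => t⁻¹ • (U ((0 + t) • y) - U ((0 : ℝ) • y))) (𝓝[>] 0)
        (𝓝 (u y)) := by
      refine tendsto_const_nhds.congr' ?_
      filter_upwards [hev, self_mem_nhdsWithin] with t ht ht0
      have ht0' : (0 : ℝ) < t := ht0
      rw [zero_add, hU0, sub_zero, ht, smul_eq_mul, inv_mul_cancel_left₀ ht0'.ne']
    exact tendsto_nhds_unique h5 h4
  intro x hx
  have h1 : ∀ y ∈ pos u, fderiv ℝ u y = fderiv ℝ U 0 := by
    intro y hy
    have h2 : u =ᶠ[𝓝 y] fderiv ℝ U 0 := by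
      filter_upwards [hopen.mem_nhds hy] with z hz
      exact key z hz
    rw [h2.fderiv_eq]
    exact (fderiv ℝ U 0).fderiv
  have h3 : fderiv ℝ u =ᶠ[𝓝 x] fun _ => fderiv ℝ U 0 := by
    filter_upwards [hopen.mem_nhds hx] with z hz
    exact h1 z hz
  rw [h3.fderiv_eq]
  simp

/-- Two local extensions have the same first and second derivatives on the closure. -/
theorem agree_deriv {u : E d → ℝ} (hc : Continuous u) {N₁ N₂ : Set (E d)} {U₁ U₂ : E d → ℝ}
    (h1 : LocalExt u N₁ U₁) (h2 : LocalExt u N₂ U₂) {x : E d} (hx1 : x ∈ N₁) (hx2 : x ∈ N₂)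
    (hxc : x ∈ closure (pos u)) : gradient U₁ x = gradient U₂ x ∧
      fderiv ℝ (gradient U₁) x = fderiv ℝ (gradient U₂) x := by
  have hopen : IsOpen (pos u) := isOpen_lt continuous_const hc
  have hne : (𝓝[pos u] x).NeBot := mem_closure_iff_nhdsWithin_neBot.mp hxc
  have g1 := M5a.contDiffOn_gradient h1.isOpen h1.smooth
  have g2 := M5a.contDiffOn_gradient h2.isOpen h2.smooth
  have a1 : ContDiffAt ℝ ∞ (gradient U₁) x := g1.contDiffAt (h1.isOpen.mem_nhds hx1)
  have a2 : ContDiffAt ℝ ∞ (gradient U₂) x := g2.contDiffAt (h2.isOpen.mem_nhds hx2)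
  have hev : ∀ᶠ y in 𝓝[pos u] x, U₁ =ᶠ[𝓝 y] U₂ := by
    have e1 : ∀ᶠ y in 𝓝[pos u] x, y ∈ N₁ := nhdsWithin_le_nhds (h1.isOpen.mem_nhds hx1)
    have e2 : ∀ᶠ y in 𝓝[pos u] x, y ∈ N₂ := nhdsWithin_le_nhds (h2.isOpen.mem_nhds hx2)
    filter_upwards [e1, e2, self_mem_nhdsWithin] with y hy1 hy2 hy
    exact (h1.mc_eventuallyEq hc hy1 hy).symm.trans (h2.mc_eventuallyEq hc hy2 hy)
  constructor
  · have l1 : Tendsto (gradient U₁) (𝓝[pos u] x) (𝓝 (gradient U₁ x)) :=
      a1.continuousAt.tendsto.mono_left nhdsWithin_le_nhds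
    have l2 : Tendsto (gradient U₂) (𝓝[pos u] x) (𝓝 (gradient U₂ x)) :=
      a2.continuousAt.tendsto.mono_left nhdsWithin_le_nhds
    exact tendsto_nhds_unique (l1.congr' (hev.mono fun y hy => hy.gradient_eq)) l2
  · have c1 : ContinuousAt (fderiv ℝ (gradient U₁)) x :=
      (a1.fderiv_right (m := 0) (by simp)).continuousAt
    have c2 : ContinuousAt (fderiv ℝ (gradient U₂)) x :=
      (a2.fderiv_right (m := 0) (by simp)).continuousAt
    have l1 : Tendsto (fderiv ℝ (gradient U₁)) (𝓝[pos u] x) (𝓝 (fderiv ℝ (gradient U₁) x)) :=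
      c1.tendsto.mono_left nhdsWithin_le_nhds
    have l2 : Tendsto (fderiv ℝ (gradient U₂)) (𝓝[pos u] x) (𝓝 (fderiv ℝ (gradient U₂) x)) :=
      c2.tendsto.mono_left nhdsWithin_le_nhds
    refine tendsto_nhds_unique (l1.congr' (hev.mono fun y hy => ?_)) l2
    exact hy.gradient.fderiv_eq

/-- The stability inequality of the statement gives the form used by the reduction. -/
theorem stabS_of_isStable {u U₀ : E d → ℝ} (h : IsSmoothCone u U₀) (hs : IsStable u U₀)
    {K : NNReal} (hK : LipschitzWith K u)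
    (hno : ∀ (N : Set (E d)) (U : E d → ℝ), LocalExt u N U → (0 : E d) ∉ N) : StabS u := by
  intro N U hU hUs φ hφ hφ0 hφc hφN F hF hFc hFN hb
  have hu := h.continuous
  have h0N := hno N U hU
  obtain ⟨N₀, hU₀, hcl⟩ := h.localExt
  set f : E d → ℝ := fun y => curv U y * φ y ^ 2 with hf
  have hfC : ContDiff ℝ ∞ f := (MC.contDiff_curv hUs).mul (hφ.pow 2)
  have hfφ : tsupport f ⊆ tsupport φ := by
    refine closure_mono fun x hx => ?_
    intro h
    exact hx (by simp [hf, h])
  have hfc : HasCompactSupport f := hφc.of_isClosed_subset (isClosed_tsupport f) hfφ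
  have hgU : ContDiff ℝ ∞ (gradient U) := MC.contDiff_gradient hUs
  have hfg : ContDiff ℝ ∞ fun y => f y • gradient U y := hfC.smul hgU
  have hfgs : tsupport (fun y => f y • gradient U y) ⊆ tsupport φ := by
    refine (closure_mono fun x hx => ?_).trans hfφ
    intro h
    exact hx (by simp [h])
  have hG : ContDiff ℝ ∞ fun y => F y + f y • gradient U y := hF.add hfg
  have hGs : tsupport (fun y => F y + f y • gradient U y) ⊆ tsupport F ∪ tsupport φ := by
    refine (tsupport_add F _).trans (union_subset_union_right _ hfgs)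
  have hGc : HasCompactSupport fun y => F y + f y • gradient U y :=
    (IsCompact.union hFc hφc).of_isClosed_subset (isClosed_tsupport _) hGs
  have h1 := one_sided_div' hK h.nonneg h.harm hU hUs (hG.of_le (by simp)) hGc
    (hGs.trans (union_subset hFN hφN)) (fun x hx hxf => by
      have h2 := hb x hx hxf
      rw [inner_add_left, real_inner_smul_left, real_inner_self_eq_norm_sq, hU.grad x hx hxf]
      simpa only [hf, one_pow, mul_one] using h2)
  -- the field `F' = - f ∇U`
  set F' : E d → E d := fun y => -(f y • gradient U y) with hF'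
  have hF's : ContDiff ℝ ∞ F' := hfg.neg
  have hF't : tsupport F' ⊆ tsupport φ := by
    refine (closure_mono fun x hx => ?_).trans hfgs
    intro h
    apply hx
    have h' : f x • gradient U x = 0 := h
    show -(f x • gradient U x) = 0
    rw [h', neg_zero]
  have hF'c : HasCompactSupport F' := hφc.of_isClosed_subset (isClosed_tsupport _) hF't
  have h2 := hs φ F' hφ hφ0 hφc (fun h => h0N (hφN h)) hF's hF'c (fun h => h0N (hφN (hF't h))) (by
    intro x hxf hx0
    by_cases hxN : x ∈ N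
    · have hxc : x ∈ closure (pos u) := frontier_subset_closure hxf
      obtain ⟨e1, e2⟩ := agree_deriv hu hU hU₀ hxN (hcl ⟨hxc, hx0⟩) hxc
      rw [← e1, ← e2]
      simp only [hF']
      rw [inner_neg_left, neg_neg, real_inner_smul_left, real_inner_self_eq_norm_sq,
        hU.grad x hxN hxf]
      simp only [hf, curv, one_pow, mul_one]
    · have h3 : φ x = 0 := image_eq_zero_of_notMem_tsupport fun h => hxN (hφN h)
      simp [hF', hf, h3])
  have hsum : ∀ x, divg F x = divg (fun y => F y + f y • gradient U y) x + divg F' x := by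
    intro x
    have hGd : DifferentiableAt ℝ (fun y => F y + f y • gradient U y) x :=
      (hG.differentiable (by simp)).differentiableAt
    have hF'd : DifferentiableAt ℝ F' x := (hF's.differentiable (by simp)).differentiableAt
    have h4 : F = fun y => (F y + f y • gradient U y) + F' y := by
      funext y; simp only [hF']; abel
    have h5 : fderiv ℝ F x = fderiv ℝ (fun y => F y + f y • gradient U y) x + fderiv ℝ F' x := by
      conv_lhs => rw [h4]
      exact (hGd.hasFDerivAt.add hF'd.hasFDerivAt).fderiv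
    rw [divg, divg, divg, h5, ← Finset.sum_add_distrib]
    simp only [add_apply, PiLp.add_apply]
  have hint : ∀ H : E d → E d, ContDiff ℝ ∞ H → HasCompactSupport H →
      IntegrableOn (divg H) {y | 0 < u y} := by
    intro H hH hHc
    have hdc : Continuous (divg H) := by
      have := hH.continuous_fderiv (by simp)
      unfold divg
      (clear * - this; fun_prop)
    exact (hdc.integrable_of_hasCompactSupport
      ((hHc.fderiv ℝ).comp_left (g := fun L : E d →L[ℝ] E d => ∑ i, L (ee i) i) (by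
        simp only [zero_apply, PiLp.zero_apply, Finset.sum_const_zero]))).integrableOn
  have h6 : ∫ x in {y | 0 < u y}, divg F x =
      (∫ x in {y | 0 < u y}, divg (fun y => F y + f y • gradient U y) x) +
        ∫ x in {y | 0 < u y}, divg F' x := by
    rw [← integral_add (hint _ hG hGc) (hint _ hF's hF'c)]
    exact integral_congr_ae (Eventually.of_forall hsum)
  have h7 : ∫ x in {y | 0 < u y}, ‖gradient φ x‖ ^ 2 =
      ∫ x in {y | 0 < u y}, ‖fderiv ℝ φ x‖ ^ 2 := by
    refine integral_congr_ae (Eventually.of_forall fun x => ?_)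
    show ‖gradient φ x‖ ^ 2 = ‖fderiv ℝ φ x‖ ^ 2
    rw [gradient, LinearIsometryEquiv.norm_map]
  have h8 : ∫ x in {y | 0 < u y}, divg F' x ≤ ∫ x in {y | 0 < u y}, ‖gradient φ x‖ ^ 2 := h2
  rw [h7] at h8
  linarith

/-- The conclusion in dimension two. -/
theorem second_zero_two {u : E 2 → ℝ} (hc : Continuous u) (hharm : Harm (pos u) u)
    (hhom : ∀ r : ℝ, 0 < r → ∀ x, u (r • x) = r * u x) :
    ∀ x, 0 < u x → fderiv ℝ (fderiv ℝ u) x = 0 := by
  have hopen : IsOpen (pos u) := isOpen_lt continuous_const hc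
  obtain ⟨hsm, hlap⟩ := hharm
  have hloc : LocalExt u (pos u) u := by
    refine ⟨hopen, hsm, fun x _ _ => rfl, fun x hx hxf => ?_⟩
    exfalso
    have h1 : x ∈ interior {y | 0 < u y} := by
      rw [hopen.interior_eq]; exact hx
    exact hxf.2 h1
  intro x hx
  have hx' : x ∈ pos u := hx
  have hx0 : x ≠ 0 := by
    rintro rfl
    have := hhom 2 (by norm_num) 0
    rw [smul_zero] at this
    linarith only [hx, this]
  have e0 := euler2 hhom hloc hc hx' hx 0
  have e1 := euler2 hhom hloc hc hx' hx 1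
  have hs : P2 u 1 0 x = P2 u 0 1 x := P2_symm hopen hsm hx' 1 0
  have hl := hlap x hx'
  unfold lap at hl
  rw [Fin.sum_univ_two] at e0 e1 hl
  rw [hs] at e1
  have h11 : P2 u 1 1 x = - P2 u 0 0 x := by linarith only [hl]
  rw [h11] at e1
  have k0 : (P2 u 0 0 x ^ 2 + P2 u 0 1 x ^ 2) * x 0 = 0 := by
    linear_combination P2 u 0 0 x * e0 + P2 u 0 1 x * e1
  have k1 : (P2 u 0 0 x ^ 2 + P2 u 0 1 x ^ 2) * x 1 = 0 := by
    linear_combination P2 u 0 1 x * e0 - P2 u 0 0 x * e1
  have hz : P2 u 0 0 x ^ 2 + P2 u 0 1 x ^ 2 = 0 := by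
    rcases mul_eq_zero.1 k0 with h | h
    · exact h
    rcases mul_eq_zero.1 k1 with h' | h'
    · exact h'
    exact absurd (by ext i; fin_cases i <;> simp [h, h']) hx0
  have a0 : P2 u 0 0 x = 0 := by nlinarith only [hz]
  have b0 : P2 u 0 1 x = 0 := by nlinarith only [hz]
  have hP : ∀ i j, P2 u i j x = 0 := by
    intro i j
    fin_cases i <;> fin_cases j
    · exact a0
    · exact b0
    · simpa [hs] using b0
    · simpa [a0] using h11
  refine rF2_clm_zero _ fun j => rF2_clm_zero _ fun i => ?_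
  rw [← P2_eq_fderiv hopen hsm hx' i j]
  exact hP i j

/-- Stable one-homogeneous solutions with smooth cross-section are flat in dimension `≤ 6`. -/
theorem stable_flat (h2 : 2 ≤ d) (h6 : d ≤ 6) {u U : E d → ℝ} (h : IsSmoothCone u U)
    (hs : IsStable u U) : (∀ x, u x = 0) ∨ ∃ e : E d, ‖e‖ = 1 ∧ ∀ x, u x = max ⟪x, e⟫ 0 := by
  have hreg := h.regular
  obtain ⟨K, hK⟩ := exists_lipschitz h2 h.nonneg h.homogeneous hreg
  by_cases hno : ∀ (N : Set (E d)) (U : E d → ℝ), LocalExt u N U → (0 : E d) ∉ N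
  · rcases Nat.lt_or_ge d 3 with h3 | h3
    · obtain rfl : d = 2 := by omega
      exact rigidity h2 h.continuous h.nonneg h.homogeneous hreg
        (second_zero_two h.continuous h.harm h.homogeneous)
    · obtain ⟨m, rfl⟩ : ∃ m, d = m + 1 := ⟨d - 1, by omega⟩
      have hS := stabS_of_isStable h hs hK hno
      have hWZ : M5.StabWZ u := fun N U' hU' W hW hW0 Z hZ hb η hη hη0 hηc hηN =>
        stability_WZ' hS h.continuous hU' hW hW0 hZ hb hη hη0 hηc hηN
      exact reduction_stable (by omega) (S5.Low.certs_of_cert5 cert5 m (by omega) (by omega))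
        h.nonneg h.harm hWZ h.homogeneous hreg
  · push Not at hno
    obtain ⟨N, U', hU', h0N⟩ := hno
    exact rigidity h2 h.continuous h.nonneg h.homogeneous hreg (h.linear hU' h0N)

end Vale.Agent.P098.H709
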