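import Vale.Agent.P098.H709.Liou
import Vale.Agent.P098.H709.Stab
import Vale.Agent.P098.H510.Conv

/-! # Assembly: classification of global minimizers, structure in dimension seven -/

open MeasureTheory Set Metric Filter
open scoped ContDiff RealInnerProductSpace Topology NNReal

namespace Vale.Agent.P098.H709

variable {d : ℕ}

theorem zero_isGlobalMinimizer : IsGlobalMinimizer (fun _ : E d => (0 : ℝ)) := by
  refine ⟨fun _ => le_rfl, fun _ => 0, fun x₀ r hr => ⟨⟨?_, ?_, ?_⟩, ?_⟩⟩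
  · exact MemLp.zero
  · exact MemLp.zero
  · intro φ _ _ _ e
    simp
  · intro v gv hv0 _ _
    have h1 : energy (ball x₀ r) (fun _ : E d => (0 : ℝ)) (fun _ => 0) = 0 := by
      unfold energy
      simp
    rw [h1]
    unfold energy
    refine integral_nonneg fun x => add_nonneg (sq_nonneg _) ?_
    exact indicator_nonneg (fun _ _ => zero_le_one) _

/-- The global minimizers in dimension `1 ≤ d ≤ 6`. -/
theorem classification (hd : 1 ≤ d) (h6 : d ≤ 6) (u : E d → ℝ) (h0 : ∀ x, 0 ≤ u x) :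
    IsGlobalMinimizer u ↔ (u =ᵐ[volume] (fun _ => 0) ∨
      ∃ (e : E d) (a : ℝ), ‖e‖ = 1 ∧ u =ᵐ[volume] fun x => max (⟪x, e⟫ - a) 0) := by
  refine ⟨liouville_six hd h6 u, ?_⟩
  rintro (h | ⟨e, a, he, h⟩)
  · exact rS7_min_congr h.symm h0 zero_isGlobalMinimizer
  · exact rS7_min_congr h.symm h0 (H510.halfPlane_isGlobalMinimizer he a)

/-- The Laplacian of Mathlib and the sum of the second partial derivatives. -/
theorem laplacian_eq_lap {u : E d → ℝ} {N : Set (E d)} (hN : IsOpen N)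
    (hs : ContDiffOn ℝ ∞ u N) {x : E d} (hx : x ∈ N) : Laplacian.laplacian u x = lap u x := by
  rw [InnerProductSpace.laplacian_eq_iteratedFDeriv_orthonormalBasis u
    (EuclideanSpace.basisFun (Fin d) ℝ)]
  unfold lap
  refine Finset.sum_congr rfl fun i _ => ?_
  rw [P2_eq_fderiv hN hs hx i i, iteratedFDeriv_two_apply]
  simp [ee]

/-- In dimension `2 ≤ d ≤ 7`, one-homogeneous global minimizers have smooth cross-section. -/
theorem smooth_cross_section (h2 : 2 ≤ d) (h7 : d ≤ 7) (u : E d → ℝ) (hu : IsGlobalMinimizer u)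
    (hh : IsOneHomogeneous u) :
    ∃ (v U : E d → ℝ) (K : ℝ≥0), u =ᵐ[volume] v ∧ MinL K v ∧ IsSmoothCone v U := by
  obtain ⟨n, rfl⟩ : ∃ n, d = n + 1 := ⟨d - 1, by omega⟩
  obtain ⟨v, K, hK, huv, hv, hhv, h0⟩ := exists_lipschitz_rep (by omega) hu hh
  have hm : MinL K v := ⟨hK, h0, lipMin_of_isGlobalMinimizer hK hv⟩
  have hreg : IsRegularAwayFromZero v := regular_of_traps hm
    fun x₀ hx hx0 ε hε =>
      flat_traps (by omega) (FL_six n (by omega) (by omega)) hm hhv hx hx0 hε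
  obtain ⟨hc, V, U, hV, hcl, hU, hUu, hfb⟩ := hreg
  refine ⟨v, U, K, huv, hm, ⟨h0, hc, hhv, ⟨V, hV, hcl, hU⟩, hUu, fun x hx => ?_, hfb⟩⟩
  obtain ⟨hs, hlap⟩ := hm.harm
  rw [laplacian_eq_lap hm.isOpen_pos hs hx]
  exact hlap x hx

end Vale.Agent.P098.H709
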